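import Mathlib

/-!
The unit sphere seen from an interior point: the length of a ray, compatible directions (pairs
spanning a segment of the sphere), and opposite points.
-/

open Set Metric

namespace Vale.Agent.P084.InfDim

variable {E : Type*} [NormedAddCommGroup E] [NormedSpace ℝ E]

/-- If `‖u + v‖ = 2` for unit vectors, the triangle inequality is an equality on their cone. -/
lemma norm_combo_of_two {u v : E} (hu : ‖u‖ = 1) (hv : ‖v‖ = 1) (h : ‖u + v‖ = 2) {a b : ℝ}
    (ha : 0 ≤ a) (hb : 0 ≤ b) : ‖a • u + b • v‖ = a + b := by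
  refine le_antisymm ((norm_add_le _ _).trans_eq ?_) ?_
  · rw [norm_smul, norm_smul, hu, hv, Real.norm_of_nonneg ha, Real.norm_of_nonneg hb, mul_one,
      mul_one]
  wlog hab : a ≤ b generalizing u v a b
  · have := this hv hu (by rwa [add_comm]) hb ha (le_of_not_ge hab)
    rwa [add_comm (b • v), add_comm b] at this
  have h1 := norm_sub_norm_le (b • (u + v)) ((b - a) • u)
  rw [show b • (u + v) - (b - a) • u = a • u + b • v by module, norm_smul, norm_smul, h, hu,
    Real.norm_of_nonneg hb, Real.norm_of_nonneg (sub_nonneg.2 hab)] at h1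
  linarith

lemma norm_two_of_combo {u v : E} (hu : ‖u‖ = 1) (hv : ‖v‖ = 1) {a b : ℝ} (ha : 0 < a)
    (hb : 0 < b) (h : ‖a • u + b • v‖ = a + b) : ‖u + v‖ = 2 := by
  have hle : ‖u + v‖ ≤ 2 := (norm_add_le _ _).trans (by rw [hu, hv]; norm_num)
  wlog hab : a ≤ b generalizing u v a b
  · have := this hv hu hb ha (by rw [add_comm, h, add_comm]) (by rwa [add_comm])
      (le_of_not_ge hab)
    rwa [add_comm]
  have h1 := norm_add_le (a • (u + v)) ((b - a) • v)
  rw [show a • (u + v) + (b - a) • v = a • u + b • v by module, h, norm_smul, norm_smul, hv,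
    Real.norm_of_nonneg ha.le, Real.norm_of_nonneg (sub_nonneg.2 hab), mul_one] at h1
  refine le_antisymm hle (le_of_mul_le_mul_left ?_ ha)
  linarith

/-- A vector compatible with the midpoint is compatible with both ends. -/
lemma norm_two_of_mid {u w v : E} (hu : ‖u‖ = 1) (hw : ‖w‖ = 1) (hv : ‖v‖ = 1)
    (h : ‖(1 / 2 : ℝ) • (u + w) + v‖ = 2) : ‖u + v‖ = 2 ∧ ‖w + v‖ = 2 := by
  have h1 := norm_add_le ((1 / 2 : ℝ) • (u + v)) ((1 / 2 : ℝ) • (w + v))
  rw [show (1 / 2 : ℝ) • (u + v) + (1 / 2 : ℝ) • (w + v) = (1 / 2 : ℝ) • (u + w) + v by module,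
    h, norm_smul, norm_smul, Real.norm_of_nonneg (by norm_num : (0 : ℝ) ≤ 1 / 2)] at h1
  have h2 := norm_add_le u v
  have h3 := norm_add_le w v
  rw [hu, hv] at h2
  rw [hw, hv] at h3
  constructor <;> linarith

/-- The direction from `p` to `w`. -/
noncomputable def dirTo (p w : E) : E := ‖w - p‖⁻¹ • (w - p)

/-- The length of the ray from `p` in direction `e` inside the unit ball. -/
noncomputable def hitLen (p e : E) : ℝ :=
  Classical.epsilon fun a : ℝ => 0 < a ∧ ‖p + a • e‖ = 1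

/-- The point where the ray from `p` in direction `e` meets the unit sphere. -/
noncomputable def hit (p e : E) : E := p + hitLen p e • e

/-- The segment between `w` and `w'` has the length of the broken line through `p`. -/
def Through (p w w' : E) : Prop := ‖w - w'‖ = ‖w - p‖ + ‖w' - p‖

variable {p : E}

lemma dist_pos_of_unit (hp : ‖p‖ < 1) {w : E} (hw : ‖w‖ = 1) : 0 < ‖w - p‖ := by
  have := norm_sub_norm_le w p
  linarith

lemma norm_dirTo (hp : ‖p‖ < 1) {w : E} (hw : ‖w‖ = 1) : ‖dirTo p w‖ = 1 := by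
  have := dist_pos_of_unit hp hw
  rw [dirTo, norm_smul, norm_inv, norm_norm, inv_mul_cancel₀ this.ne']

lemma smul_dirTo (hp : ‖p‖ < 1) {w : E} (hw : ‖w‖ = 1) : ‖w - p‖ • dirTo p w = w - p := by
  rw [dirTo, smul_inv_smul₀ (dist_pos_of_unit hp hw).ne']

lemma through_iff (hp : ‖p‖ < 1) {w w' : E} (hw : ‖w‖ = 1) (hw' : ‖w'‖ = 1) :
    Through p w w' ↔ ‖dirTo p w + -dirTo p w'‖ = 2 := by
  have e : ‖w - p‖ • dirTo p w + ‖w' - p‖ • -dirTo p w' = w - w' := by
    rw [smul_neg, smul_dirTo hp hw, smul_dirTo hp hw']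
    abel
  have hn : ‖-dirTo p w'‖ = 1 := by rw [norm_neg, norm_dirTo hp hw']
  constructor
  · intro h
    refine norm_two_of_combo (norm_dirTo hp hw) hn (dist_pos_of_unit hp hw)
      (dist_pos_of_unit hp hw') ?_
    rw [e]
    exact h
  · intro h
    have := norm_combo_of_two (norm_dirTo hp hw) hn h (norm_nonneg (w - p)) (norm_nonneg (w' - p))
    rw [e] at this
    exact this

lemma hitLen_spec (hp : ‖p‖ < 1) {e : E} (he : ‖e‖ = 1) :
    0 < hitLen p e ∧ ‖p + hitLen p e • e‖ = 1 := by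
  refine Classical.epsilon_spec (p := fun a : ℝ => 0 < a ∧ ‖p + a • e‖ = 1) ?_
  set S : ℝ := 1 + ‖p‖
  have hS : 0 ≤ S := by positivity
  have hend : 1 ≤ ‖p + S • e‖ := by
    have := norm_sub_le (p + S • e) p
    rw [add_sub_cancel_left, norm_smul, he, mul_one, Real.norm_of_nonneg hS] at this
    linarith
  have hc : ContinuousOn (fun a : ℝ => ‖p + a • e‖) (Icc 0 S) := by fun_prop
  obtain ⟨a, ha, ha'⟩ := intermediate_value_Icc hS hc (show (1 : ℝ) ∈ Icc _ _ from
    ⟨by simp [hp.le], hend⟩)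
  rcases ha.1.lt_or_eq with h | h
  · exact ⟨a, h, ha'⟩
  · subst h
    simp at ha'
    linarith

lemma norm_hit (hp : ‖p‖ < 1) {e : E} (he : ‖e‖ = 1) : ‖hit p e‖ = 1 := (hitLen_spec hp he).2

lemma hit_sub (p e : E) : hit p e - p = hitLen p e • e := by simp [hit]

lemma norm_hit_sub (hp : ‖p‖ < 1) {e : E} (he : ‖e‖ = 1) : ‖hit p e - p‖ = hitLen p e := by
  rw [hit_sub, norm_smul, he, mul_one, Real.norm_of_nonneg (hitLen_spec hp he).1.le]

lemma hitLen_le (hp : ‖p‖ < 1) {e : E} (he : ‖e‖ = 1) : hitLen p e ≤ 1 + ‖p‖ := by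
  rw [← norm_hit_sub hp he]
  exact (norm_sub_le _ _).trans_eq (by rw [norm_hit hp he])

lemma dirTo_hit (hp : ‖p‖ < 1) {e : E} (he : ‖e‖ = 1) : dirTo p (hit p e) = e := by
  rw [dirTo, norm_hit_sub hp he, hit_sub, inv_smul_smul₀ (hitLen_spec hp he).1.ne']

lemma norm_lt_one_of_lt (hp : ‖p‖ < 1) {e : E} {a a' : ℝ} (ha : 0 < a) (h : a < a')
    (h' : ‖p + a' • e‖ ≤ 1) : ‖p + a • e‖ < 1 := by
  have ha' : 0 < a' := ha.trans h
  have e1 : p + a • e = (1 - a / a') • p + (a / a') • (p + a' • e) := by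
    rw [smul_add, smul_smul, div_mul_cancel₀ _ ha'.ne']
    module
  have hθ : 0 < 1 - a / a' := by rw [sub_pos, div_lt_one ha']; exact h
  rw [e1]
  calc ‖(1 - a / a') • p + (a / a') • (p + a' • e)‖
      ≤ (1 - a / a') * ‖p‖ + (a / a') * ‖p + a' • e‖ := by
        refine (norm_add_le _ _).trans_eq ?_
        rw [norm_smul, norm_smul, Real.norm_of_nonneg hθ.le, Real.norm_of_nonneg (by positivity)]
    _ < 1 := by
        have h1 := mul_lt_mul_of_pos_left hp hθ
        have h2 := mul_le_mul_of_nonneg_left h' (show 0 ≤ a / a' by positivity)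
        linarith

lemma continuousOn_hit (hp : ‖p‖ < 1) : ContinuousOn (hit p) (sphere (0 : E) 1) := by
  have key : ∀ e e' : E, ‖e‖ = 1 → ‖e'‖ = 1 → hitLen p e ≤ hitLen p e' →
      hitLen p e' - hitLen p e ≤ 4 / (1 - ‖p‖) * ‖e - e'‖ := by
    intro e e' he he' hle
    set a := hitLen p e
    set a' := hitLen p e'
    obtain ⟨ha, han⟩ := hitLen_spec hp he
    obtain ⟨ha', han'⟩ := hitLen_spec hp he'
    have hθ : 0 ≤ 1 - a / a' := by rw [sub_nonneg, div_le_one ha']; exact hle
    have e1 : p + a • e' = (1 - a / a') • p + (a / a') • (p + a' • e') := by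
      rw [smul_add, smul_smul, div_mul_cancel₀ _ ha'.ne']
      module
    have h1 : ‖p + a • e'‖ ≤ (1 - a / a') * ‖p‖ + a / a' := by
      rw [e1]
      refine (norm_add_le _ _).trans_eq ?_
      rw [norm_smul, norm_smul, han', mul_one, Real.norm_of_nonneg hθ,
        Real.norm_of_nonneg (div_nonneg ha.le ha'.le)]
    have h2 := norm_le_norm_add_norm_sub' (p + a • e) (p + a • e')
    rw [han, add_sub_add_left_eq_sub, ← smul_sub, norm_smul, Real.norm_of_nonneg ha.le] at h2
    have h3 : (a' - a) * (1 - ‖p‖) ≤ a * a' * ‖e - e'‖ := by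
      have h4 := mul_le_mul_of_nonneg_left (h2.trans (add_le_add_left h1 _)) ha'.le
      have e3 : a' * (a / a') = a := mul_div_cancel₀ _ ha'.ne'
      linear_combination h4 + (1 - ‖p‖) * e3
    have h5 : a * a' ≤ 4 := by
      nlinarith [hitLen_le hp he, hitLen_le hp he']
    rw [div_mul_eq_mul_div, le_div_iff₀ (by linarith)]
    nlinarith [norm_nonneg (e - e')]
  have hlen : ContinuousOn (hitLen p) (sphere (0 : E) 1) := by
    refine (LipschitzOnWith.of_dist_le_mul (K := ⟨4 / (1 - ‖p‖), div_nonneg (by norm_num)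
      (by linarith)⟩) fun e he e' he' => ?_).continuousOn
    rw [mem_sphere_zero_iff_norm] at he he'
    rw [Real.dist_eq, dist_eq_norm]
    rcases le_total (hitLen p e) (hitLen p e') with h | h
    · rw [abs_sub_comm, abs_of_nonneg (sub_nonneg.2 h)]
      exact key e e' he he' h
    · rw [abs_of_nonneg (sub_nonneg.2 h), norm_sub_rev]
      exact key e' e he' he h
  exact continuousOn_const.add (hlen.smul continuousOn_id)

lemma hit_dirTo (hp : ‖p‖ < 1) {w : E} (hw : ‖w‖ = 1) : hit p (dirTo p w) = w := by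
  have he := norm_dirTo hp hw
  obtain ⟨ha, han⟩ := hitLen_spec hp he
  have hb := dist_pos_of_unit hp hw
  have hbn : ‖p + ‖w - p‖ • dirTo p w‖ = 1 := by rw [smul_dirTo hp hw, add_sub_cancel, hw]
  have : hitLen p (dirTo p w) = ‖w - p‖ := by
    rcases lt_trichotomy (hitLen p (dirTo p w)) ‖w - p‖ with h | h | h
    · exact absurd han (norm_lt_one_of_lt hp ha h hbn.le).ne
    · exact h
    · exact absurd hbn (norm_lt_one_of_lt hp hb h han.le).ne
  rw [hit, this, smul_dirTo hp hw, add_sub_cancel]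

lemma continuousOn_dirTo (hp : ‖p‖ < 1) : ContinuousOn (dirTo p) (sphere (0 : E) 1) := by
  refine ((continuousOn_id.sub continuousOn_const).norm.inv₀ fun w hw => ?_).smul
    (continuousOn_id.sub continuousOn_const)
  exact (dist_pos_of_unit hp (mem_sphere_zero_iff_norm.1 hw)).ne'

end Vale.Agent.P084.InfDim
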