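import Vale.Agent.P225.Cluster.Brouwer

/-!
A self-map of a convex set cannot decrease finitely many convex functions at every point, up to an
arbitrarily small error: Brouwer's theorem in the space of values and a selection by weights.
-/

open Set Metric

namespace Vale.Agent.P084.InfDim

/-- If `ψ` maps the convex set `C` to itself continuously and `F` is a finite family of bounded
continuous convex functions, then some point has no coordinate decreased by more than `ε`. -/
theorem exists_almost_nondecreasing {E : Type*} [NormedAddCommGroup E] [NormedSpace ℝ E]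
    {C : Set E} (hC : Convex ℝ C) (hne : C.Nonempty) {ψ : E → E} (hψ : ContinuousOn ψ C)
    (hmap : MapsTo ψ C C) {n : ℕ} (F : Fin n → E → ℝ) (hF : ∀ j, ConvexOn ℝ C (F j))
    (hFc : ∀ j, Continuous (F j)) {M : ℝ} (hM : 0 ≤ M) (hFb : ∀ j, ∀ e ∈ C, |F j e| ≤ M)
    {ε : ℝ} (hε : 0 < ε) : ∃ e ∈ C, ∀ j, F j e ≤ F j (ψ e) + ε := by
  classical
  set G : E → (Fin n → ℝ) := fun e j => F j e with hG
  have hGc : Continuous G := continuous_pi hFc
  have hGb : ∀ e ∈ C, G e ∈ closedBall (0 : Fin n → ℝ) M := fun e he => by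
    rw [mem_closedBall, dist_zero_right, pi_norm_le_iff_of_nonneg hM]
    exact fun j => hFb j e he
  have htb : TotallyBounded (G '' C) :=
    ((isCompact_closedBall (0 : Fin n → ℝ) M).totallyBounded).subset (fun _ ⟨e, he, hze⟩ => hze ▸ hGb e he)
  obtain ⟨T, hTsub, hTfin, hTcov⟩ := finite_approx_of_totallyBounded htb (ε / 2) (by linarith)
  set S : Finset (Fin n → ℝ) := hTfin.toFinset with hS
  have hpre : ∀ p ∈ S, ∃ e ∈ C, G e = p := fun p hp => hTsub (hTfin.mem_toFinset.1 hp)
  have hSne : S.Nonempty := by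
    obtain ⟨e, he⟩ := hne
    obtain ⟨p, hp, -⟩ := mem_iUnion₂.1 (hTcov (mem_image_of_mem G he))
    exact ⟨p, hTfin.mem_toFinset.2 hp⟩
  choose c hcC hcG using hpre
  -- excess of a node over a target, and weights favouring nearly optimal nodes
  set ρ : (Fin n → ℝ) → (Fin n → ℝ) → ℝ := fun p z => ‖fun j => max 0 (p j - z j)‖ with hρ
  have hρc : ∀ p, Continuous (ρ p) := fun p => by fun_prop
  set δ : (Fin n → ℝ) → ℝ := fun z => S.inf' hSne fun p => ρ p z with hδ
  have hδc : Continuous δ := Continuous.finset_inf'_apply hSne fun p _ => hρc p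
  set w : (Fin n → ℝ) → (Fin n → ℝ) → ℝ := fun p z => max 0 (δ z + ε / 2 - ρ p z) with hw
  have hwc : ∀ p, Continuous (w p) := fun p => by fun_prop
  have hw0 : ∀ p z, 0 ≤ w p z := fun p z => le_max_left _ _
  set W : (Fin n → ℝ) → ℝ := fun z => ∑ p ∈ S, w p z with hW
  have hWpos : ∀ z, 0 < W z := fun z => by
    obtain ⟨p, hp, e⟩ := S.exists_mem_eq_inf' hSne fun p => ρ p z
    refine Finset.sum_pos' (fun q _ => hw0 q z) ⟨p, hp, lt_max_of_lt_right ?_⟩
    have : δ z = ρ p z := e
    linarith
  set μ : S → (Fin n → ℝ) → ℝ := fun p z => w p z / W z with hμ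
  have hμ0 : ∀ p z, 0 ≤ μ p z := fun p z => div_nonneg (hw0 _ z) (hWpos z).le
  have hμ1 : ∀ z, ∑ p, μ p z = 1 := fun z => by
    show ∑ p : S, w p z / W z = 1
    rw [← Finset.sum_div, Finset.sum_coe_sort S (fun p => w p z)]
    exact div_self (hWpos z).ne'
  set σ : (Fin n → ℝ) → E := fun z => ∑ p : S, μ p z • c p p.2 with hσ
  have hσC : ∀ z, σ z ∈ C := fun z =>
    hC.sum_mem (fun p _ => hμ0 p z) (hμ1 z) fun p _ => hcC _ _
  have hWc : Continuous W := continuous_finsetSum _ fun p _ => hwc p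
  have hσc : Continuous σ := continuous_finsetSum _ fun p _ =>
    ((hwc p).div hWc fun z => (hWpos z).ne').smul continuous_const
  have hσle : ∀ z j, F j (σ z) ≤ z j + δ z + ε / 2 := fun z j => by
    refine ((hF j).map_sum_le (fun p _ => hμ0 p z) (hμ1 z) fun p _ => hcC _ _).trans ?_
    calc ∑ p : S, μ p z • F j (c p p.2) ≤ ∑ p : S, μ p z * (z j + δ z + ε / 2) := by
          refine Finset.sum_le_sum fun p _ => ?_
          rw [smul_eq_mul]
          rcases le_or_gt (δ z + ε / 2) (ρ p z) with h | h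
          · have : μ p z = 0 := by
              simp only [hμ, hw, max_eq_left (sub_nonpos.2 h), zero_div]
            simp [this]
          refine mul_le_mul_of_nonneg_left ?_ (hμ0 p z)
          have h2 : F j (c p p.2) = (p : Fin n → ℝ) j := congrFun (hcG p p.2) j
          have h1 : max 0 ((p : Fin n → ℝ) j - z j) ≤ ρ p z :=
            (le_abs_self _).trans (norm_le_pi_norm (fun j => max 0 ((p : Fin n → ℝ) j - z j)) j)
          linarith [(le_max_right 0 ((p : Fin n → ℝ) j - z j)).trans h1]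
      _ = z j + δ z + ε / 2 := by rw [← Finset.sum_mul, hμ1, one_mul]
  obtain ⟨z, -, hz⟩ := Vale.Agent.P225.exists_fixedPoint_closedBall (c := (0 : Fin n → ℝ)) hM
    (f := fun z => G (ψ (σ z)))
    (hGc.comp (hψ.comp_continuous hσc hσC)).continuousOn
    (fun z _ => hGb _ (hmap (hσC z)))
  refine ⟨σ z, hσC z, fun j => ?_⟩
  have hzj : F j (ψ (σ z)) = z j := congrFun hz j
  have hδz : δ z ≤ ε / 2 := by
    have hmem : z ∈ G '' C := ⟨_, hmap (hσC z), hz⟩
    obtain ⟨p, hp, hd⟩ := mem_iUnion₂.1 (hTcov hmem)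
    refine (Finset.inf'_le _ (hTfin.mem_toFinset.2 hp)).trans ?_
    rw [pi_norm_le_iff_of_nonneg (by linarith)]
    intro i
    rw [Real.norm_eq_abs, abs_of_nonneg (le_max_left _ _)]
    refine max_le (by linarith) ?_
    rw [mem_ball, dist_eq_norm] at hd
    have hi := norm_le_pi_norm (z - p) i
    rw [Pi.sub_apply, Real.norm_eq_abs] at hi
    linarith [neg_abs_le (z i - p i)]
  linarith [hσle z j]

end Vale.Agent.P084.InfDim
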