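import Vale.Agent.P084.InfDim.Profile
import Vale.Agent.P084.InfDim.Hit
import Vale.Agent.P084.InfDim.Selection
import Vale.Agent.P084.UniformConvex

/-!
An attained positive deviation is impossible for a surjective isometry of unit spheres.

The cap over a maximal convex subset `C` of the target sphere consists of points of deviation `D`,
the chain map is a self-map of `C`, and the selection lemma closes the chain one-sidedly.
-/

open Set Metric Filter
open scoped Topology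

namespace Vale.Agent.P084.InfDim

variable {X Y : Type*} [NormedAddCommGroup X] [NormedSpace ℝ X] [NormedAddCommGroup Y]
  [NormedSpace ℝ Y]

/-- A maximal convex subset of the unit sphere through a given point: it absorbs every unit vector
compatible with all of its elements. -/
lemma exists_face {v : Y} (hv : ‖v‖ = 1) :
    ∃ C : Set Y, Convex ℝ C ∧ C ⊆ sphere 0 1 ∧ v ∈ C ∧
      ∀ w : Y, ‖w‖ = 1 → (∀ e ∈ C, ‖e + w‖ = 2) → w ∈ C := by
  set S : Set (Set Y) := {C | Convex ℝ C ∧ C ⊆ sphere 0 1 ∧ v ∈ C} with hS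
  have hv' : ({v} : Set Y) ∈ S :=
    ⟨convex_singleton v, singleton_subset_iff.2 (mem_sphere_zero_iff_norm.2 hv), rfl⟩
  obtain ⟨C, hvC, hCm⟩ := zorn_subset_nonempty S (fun c hc hchain hne => by
    refine ⟨⋃₀ c, ⟨hchain.directedOn.convex_sUnion fun A hA => (hc hA).1,
      sUnion_subset fun A hA => (hc hA).2.1, ?_⟩, fun A hA => subset_sUnion_of_mem hA⟩
    obtain ⟨A, hA⟩ := hne
    exact mem_sUnion_of_mem (hc hA).2.2 hA) {v} hv'
  obtain ⟨hCc, hCs, hCv⟩ := hCm.prop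
  refine ⟨C, hCc, hCs, hCv, fun w hw hcomp => ?_⟩
  have hsub : convexHull ℝ (insert w C) ∈ S := by
    refine ⟨convex_convexHull ℝ _, fun u hu => ?_,
      subset_convexHull ℝ _ (mem_insert_of_mem w hCv)⟩
    rw [convexHull_insert ⟨v, hCv⟩, hCc.convexHull_eq, mem_convexJoin] at hu
    obtain ⟨w', hw', e, he, a, b, ha, hb, hab, rfl⟩ := hu
    rw [mem_singleton_iff] at hw'
    subst hw'
    rw [mem_sphere_zero_iff_norm]
    have he1 : ‖e‖ = 1 := mem_sphere_zero_iff_norm.1 (hCs he)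
    have := norm_combo_of_two hw he1 (by rw [add_comm]; exact hcomp e he) ha hb
    rw [this, hab]
  exact hCm.le_of_ge hsub ((subset_insert w C).trans (subset_convexHull ℝ _))
    (subset_convexHull ℝ _ (mem_insert w C))

lemma convexOn_norm_sub {C : Set Y} (hC : Convex ℝ C) (w : Y) :
    ConvexOn ℝ C fun e : Y => ‖e - w‖ := by
  refine ⟨hC, fun a _ b _ α β hα hβ hαβ => ?_⟩
  have e1 : α • a + β • b - w = α • (a - w) + β • (b - w) := by
    calc α • a + β • b - w = α • a + β • b - (α + β) • w := by rw [hαβ, one_smul]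
      _ = α • (a - w) + β • (b - w) := by module
  simp only [smul_eq_mul]
  rw [e1]
  refine (norm_add_le _ _).trans_eq ?_
  rw [norm_smul, norm_smul, Real.norm_of_nonneg hα, Real.norm_of_nonneg hβ]

/-- A surjective isometry of spheres written as a pair of maps of the spaces. -/
structure SphereIso (F : X → Y) (G : Y → X) : Prop where
  norm_map : ∀ a, ‖a‖ = 1 → ‖F a‖ = 1
  norm_inv : ∀ c, ‖c‖ = 1 → ‖G c‖ = 1
  iso : ∀ a b, ‖a‖ = 1 → ‖b‖ = 1 → ‖F a - F b‖ = ‖a - b‖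
  right_inv : ∀ c, ‖c‖ = 1 → F (G c) = c
  cont : Continuous F
  cont_inv : Continuous G

variable {F : X → Y} {G : Y → X}

section chain

variable {p : X} {q : Y} {D : ℝ}

/-- Between deviations `D` and `-D`, broken lines of full length correspond. -/
lemma through_transfer (h : SphereIso F G) {y z : X} (hy : ‖y‖ = 1) (hz : ‖z‖ = 1)
    (hyP : ‖y - p‖ - ‖F y - q‖ = D) (hzN : ‖z - p‖ - ‖F z - q‖ = -D) :
    Through p y z ↔ Through q (F y) (F z) := by
  unfold Through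
  rw [h.iso y z hy hz]
  constructor <;> intro e <;> linarith

lemma dev_neg_of_through (h : SphereIso F G)
    (hb : ∀ w, ‖w‖ = 1 → |‖w - p‖ - ‖F w - q‖| ≤ D) {y z : X} (hy : ‖y‖ = 1) (hz : ‖z‖ = 1)
    (hyP : ‖y - p‖ - ‖F y - q‖ = D) (hyz : Through p y z) :
    ‖z - p‖ - ‖F z - q‖ = -D := by
  have h1 := (abs_le.1 (hb z hz)).1
  have h2 := norm_sub_le_norm_sub_add_norm_sub (F y) q (F z)
  rw [h.iso y z hy hz, hyz, norm_sub_rev q (F z)] at h2
  linarith

lemma dev_pos_of_through (h : SphereIso F G)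
    (hb : ∀ w, ‖w‖ = 1 → |‖w - p‖ - ‖F w - q‖| ≤ D) {y z : X} (hy : ‖y‖ = 1) (hz : ‖z‖ = 1)
    (hzN : ‖z - p‖ - ‖F z - q‖ = -D) (hyz : Through q (F y) (F z)) :
    ‖y - p‖ - ‖F y - q‖ = D := by
  have h1 := (abs_le.1 (hb y hy)).2
  have h2 := norm_sub_le_norm_sub_add_norm_sub y p z
  rw [← h.iso y z hy hz, hyz, norm_sub_rev p z] at h2
  linarith

end chain

lemma norm_sub_line {t : ℝ} (x : X) {a : ℝ} (ha : 0 ≤ a) (d : X) (τ : ℝ) :
    ‖t • x + a • d - (t + τ * a) • x‖ = a * ‖d - τ • x‖ := by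
  rw [show t • x + a • d - (t + τ * a) • x = a • (d - τ • x) by module, norm_smul,
    Real.norm_of_nonneg ha]

lemma convex_profile (w v : X) (s u θ : ℝ) (h0 : 0 ≤ θ) (h1 : θ ≤ 1) :
    ‖w - (θ * s + (1 - θ) * u) • v‖ ≤ θ * ‖w - s • v‖ + (1 - θ) * ‖w - u • v‖ := by
  rw [show w - (θ * s + (1 - θ) * u) • v = θ • (w - s • v) + (1 - θ) • (w - u • v) by module]
  refine (norm_add_le _ _).trans_eq ?_
  rw [norm_smul, norm_smul, Real.norm_of_nonneg h0, Real.norm_of_nonneg (sub_nonneg.2 h1)]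

/-- No deviation attains a positive bound. -/
theorem no_attained (h : SphereIso F G) {D : ℝ} (hD : 0 < D) {x : X} (hx : ‖x‖ = 1) {t : ℝ}
    (ht0 : 0 < t) (ht1 : t < 1)
    (hb : ∀ w, ‖w‖ = 1 → ∀ s : ℝ, 0 ≤ s → s ≤ 1 → |‖w - s • x‖ - ‖F w - s • F x‖| ≤ D)
    {y₀ : X} (hy₀ : ‖y₀‖ = 1) (hdev : ‖y₀ - t • x‖ - ‖F y₀ - t • F x‖ = D) : False := by
  set p : X := t • x with hp
  set q : Y := t • F x with hq
  have hFx : ‖F x‖ = 1 := h.norm_map x hx
  have hpn : ‖p‖ = t := by rw [hp, norm_smul, hx, mul_one, Real.norm_of_nonneg ht0.le]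
  have hqn : ‖q‖ = t := by rw [hq, norm_smul, hFx, mul_one, Real.norm_of_nonneg ht0.le]
  have hp1 : ‖p‖ < 1 := by rw [hpn]; exact ht1
  have hq1 : ‖q‖ < 1 := by rw [hqn]; exact ht1
  have hbt : ∀ w, ‖w‖ = 1 → |‖w - p‖ - ‖F w - q‖| ≤ D := fun w hw => hb w hw t ht0.le ht1.le
  have ndir : ∀ {w}, ‖w‖ = 1 → ‖dirTo p w‖ = 1 := fun hw => norm_dirTo hp1 hw
  -- the seed
  set z₀ : X := hit p (-dirTo p y₀) with hz₀
  have nd₀ : ‖-dirTo p y₀‖ = 1 := by rw [norm_neg, ndir hy₀]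
  have nz₀ : ‖z₀‖ = 1 := norm_hit hp1 nd₀
  have th₀ : Through p y₀ z₀ := by
    rw [through_iff hp1 hy₀ nz₀, hz₀, dirTo_hit hp1 nd₀, neg_neg, ← two_smul ℝ, norm_smul,
      ndir hy₀]
    norm_num
  have hz₀N := dev_neg_of_through h hbt hy₀ nz₀ hdev th₀
  set v₀ : Y := -dirTo q (F z₀) with hv₀
  obtain ⟨C, hCc, hCs, hv₀C, hCabs⟩ := exists_face (v := v₀)
    (by rw [hv₀, norm_neg, norm_dirTo hq1 (h.norm_map _ nz₀)])
  have nC : ∀ {e}, e ∈ C → ‖e‖ = 1 := fun he => mem_sphere_zero_iff_norm.1 (hCs he)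
  have compC : ∀ {e e'}, e ∈ C → e' ∈ C → ‖e + e'‖ = 2 := fun {e e'} he he' => by
    have hm := nC (hCc he he' (by norm_num : (0 : ℝ) ≤ 1 / 2) (by norm_num : (0 : ℝ) ≤ 1 / 2)
      (by norm_num))
    rw [← smul_add, norm_smul, Real.norm_of_nonneg (by norm_num : (0 : ℝ) ≤ 1 / 2)] at hm
    linarith
  -- upper points, their directions, opposite points, next directions
  set up : Y → X := fun e => G (hit q e) with hup
  set dX : Y → X := fun e => dirTo p (up e) with hdX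
  set low : Y → X := fun e => hit p (-dX e) with hlow
  set ψ : Y → Y := fun e => -dirTo q (F (low e)) with hψ
  have nup : ∀ {e}, e ∈ C → ‖up e‖ = 1 := fun he => h.norm_inv _ (norm_hit hq1 (nC he))
  have Fup : ∀ {e}, e ∈ C → F (up e) = hit q e := fun he =>
    h.right_inv _ (norm_hit hq1 (nC he))
  have dirFup : ∀ {e}, e ∈ C → dirTo q (F (up e)) = e := fun he => by
    rw [Fup he, dirTo_hit hq1 (nC he)]
  have upP : ∀ {e}, e ∈ C → ‖up e - p‖ - ‖F (up e) - q‖ = D := fun he => by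
    refine dev_pos_of_through h hbt (nup he) nz₀ hz₀N ?_
    rw [through_iff hq1 (h.norm_map _ (nup he)) (h.norm_map _ nz₀), dirFup he]
    exact compC he hv₀C
  have ndX : ∀ {e}, e ∈ C → ‖dX e‖ = 1 := fun he => ndir (nup he)
  have nlow : ∀ {e}, e ∈ C → ‖low e‖ = 1 := fun he =>
    norm_hit hp1 (by rw [norm_neg, ndX he])
  -- a point below, compatible in the source with the cap point over `e`
  have below : ∀ {e}, e ∈ C → ∀ {m}, ‖m‖ = 1 → ‖dX e + m‖ = 2 →
      ‖hit p (-m) - p‖ - ‖F (hit p (-m)) - q‖ = -D ∧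
        ‖e + -dirTo q (F (hit p (-m)))‖ = 2 := fun {e} he {m} hm hem => by
    have nm : ‖-m‖ = 1 := by rw [norm_neg, hm]
    have nz := norm_hit hp1 nm
    have th : Through p (up e) (hit p (-m)) := by
      rw [through_iff hp1 (nup he) nz, dirTo_hit hp1 nm, neg_neg]
      exact hem
    have hN := dev_neg_of_through h hbt (nup he) nz (upP he) th
    have th' := (through_transfer h (nup he) nz (upP he) hN).1 th
    rw [through_iff hq1 (h.norm_map _ (nup he)) (h.norm_map _ nz), dirFup he] at th'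
    exact ⟨hN, th'⟩
  -- back to the source
  have back : ∀ {e}, e ∈ C → ∀ {m}, ‖m‖ = 1 →
      ‖hit p (-m) - p‖ - ‖F (hit p (-m)) - q‖ = -D →
        ‖e + -dirTo q (F (hit p (-m)))‖ = 2 → ‖dX e + m‖ = 2 := fun {e} he {m} hm hN hev => by
    have nm : ‖-m‖ = 1 := by rw [norm_neg, hm]
    have nz := norm_hit hp1 nm
    have th' : Through q (F (up e)) (F (hit p (-m))) := by
      rw [through_iff hq1 (h.norm_map _ (nup he)) (h.norm_map _ nz), dirFup he]
      exact hev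
    have th := (through_transfer h (nup he) nz (upP he) hN).2 th'
    rw [through_iff hp1 (nup he) nz, dirTo_hit hp1 nm, neg_neg] at th
    exact th
  have self2 : ∀ {e}, e ∈ C → ‖dX e + dX e‖ = 2 := fun he => by
    rw [← two_smul ℝ, norm_smul, ndX he]
    norm_num
  -- the source directions are pairwise compatible
  have compX : ∀ {e₁ e₂}, e₁ ∈ C → e₂ ∈ C → ‖dX e₁ + dX e₂‖ = 2 := by
    intro e₁ e₂ h₁ h₂
    have hm : (1 / 2 : ℝ) • (e₁ + e₂) ∈ C := by
      rw [smul_add]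
      exact hCc h₁ h₂ (by norm_num) (by norm_num) (by norm_num)
    set es := (1 / 2 : ℝ) • (e₁ + e₂) with hes
    obtain ⟨hN, hv⟩ := below hm (ndX hm) (self2 hm)
    have nv : ∀ {m : X}, ‖m‖ = 1 → ‖-dirTo q (F (hit p (-m)))‖ = 1 := fun {m} hm' => by
      rw [norm_neg, norm_dirTo hq1 (h.norm_map _ (norm_hit hp1 (by rw [norm_neg, hm'])))]
    have h1v := (norm_two_of_mid (nC h₁) (nC h₂) (nv (ndX hm)) hv).1
    have h1s := back h₁ (ndX hm) hN h1v
    set m := (1 / 2 : ℝ) • (dX es + dX e₁) with hmdef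
    have nm : ‖m‖ = 1 := by
      rw [hmdef, norm_smul, add_comm (dX es), h1s]
      norm_num
    have hsm : ‖dX es + m‖ = 2 := by
      rw [hmdef, show dX es + (1 / 2 : ℝ) • (dX es + dX e₁) =
        (3 / 2 : ℝ) • dX es + (1 / 2 : ℝ) • dX e₁ by module,
        norm_combo_of_two (ndX hm) (ndX h₁) (by rw [add_comm]; exact h1s) (by norm_num)
          (by norm_num)]
      norm_num
    obtain ⟨hN', hv'⟩ := below hm nm hsm
    have h2v := (norm_two_of_mid (nC h₁) (nC h₂) (nv nm) hv').2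
    have h2m := back h₂ nm hN' h2v
    rw [add_comm, hmdef] at h2m
    exact (norm_two_of_mid (ndX hm) (ndX h₁) (ndX h₂) h2m).2
  have nψ : ∀ {e}, e ∈ C → ‖ψ e‖ = 1 := fun he => by
    simp only [hψ, norm_neg]
    exact norm_dirTo hq1 (h.norm_map _ (nlow he))
  have hmap : MapsTo ψ C C := fun e he =>
    hCabs _ (nψ he) fun e' he' => (below he' (ndX he) (compX he' he)).2
  have hψc : ContinuousOn ψ C := by
    have c1 : ContinuousOn up C :=
      h.cont_inv.comp_continuousOn ((continuousOn_hit hq1).mono hCs)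
    have c2 : ContinuousOn dX C :=
      (continuousOn_dirTo hp1).comp c1 fun e he => mem_sphere_zero_iff_norm.2 (nup he)
    have c3 : ContinuousOn low C :=
      (continuousOn_hit hp1).comp c2.neg fun e he =>
        mem_sphere_zero_iff_norm.2 (by rw [norm_neg, ndX he])
    exact ((continuousOn_dirTo hq1).comp (h.cont.comp_continuousOn c3) fun e he =>
      mem_sphere_zero_iff_norm.2 (h.norm_map _ (nlow he))).neg
  -- almost non-decreasing profiles
  have hsel : ∀ m : ℕ, ∃ e ∈ C, ∀ τ : ℝ, |τ| ≤ (m : ℝ) + 1 →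
      ‖e - τ • F x‖ ≤ ‖ψ e - τ • F x‖ + 3 / ((m : ℝ) + 1) := by
    intro m
    set M : ℝ := (m : ℝ) + 1 with hM
    have hM1 : 1 ≤ M := by rw [hM]; linarith [(Nat.cast_nonneg m : (0 : ℝ) ≤ m)]
    have hM0 : 0 < M := by linarith
    set N : ℕ := 2 * (m + 1) ^ 2 + 1 with hN
    set τs : Fin N → ℝ := fun i => -M + (i : ℕ) / M with hτs
    have hτb : ∀ i, |τs i| ≤ M := fun i => by
      have hi : ((i : ℕ) : ℝ) ≤ 2 * M ^ 2 := by
        have := i.2
        have h' : (i : ℕ) ≤ 2 * (m + 1) ^ 2 := by omega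
        calc ((i : ℕ) : ℝ) ≤ ((2 * (m + 1) ^ 2 : ℕ) : ℝ) := by exact_mod_cast h'
          _ = 2 * M ^ 2 := by rw [hM]; push_cast; ring
      have h0 : (0 : ℝ) ≤ (i : ℕ) / M := by positivity
      have h1 : ((i : ℕ) : ℝ) / M ≤ 2 * M := by rw [div_le_iff₀ hM0]; linarith
      rw [hτs, abs_le]
      constructor <;> linarith
    obtain ⟨e, he, hle⟩ := exists_almost_nondecreasing hCc ⟨v₀, hv₀C⟩ hψc hmap
      (fun i e => ‖e - τs i • F x‖) (fun i => convexOn_norm_sub hCc _) (fun i => by fun_prop)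
      (M := 1 + M) (by linarith) (fun i e he => by
        rw [abs_of_nonneg (norm_nonneg _)]
        refine (norm_sub_le _ _).trans ?_
        rw [nC he, norm_smul, hFx, mul_one, Real.norm_eq_abs]
        linarith [hτb i])
      (ε := 1 / M) (by positivity)
    refine ⟨e, he, fun τ hτ => ?_⟩
    obtain ⟨hτl, hτu⟩ := abs_le.1 hτ
    set i₀ : ℕ := ⌊(τ + M) * M⌋₊ with hi₀
    have hnn : 0 ≤ (τ + M) * M := mul_nonneg (by linarith) hM0.le
    have hfl := Nat.floor_le hnn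
    have hfu := Nat.lt_floor_add_one ((τ + M) * M)
    have hiN : i₀ < N := by
      have h2 : (τ + M) * M ≤ ((2 * (m + 1) ^ 2 : ℕ) : ℝ) := by
        push_cast
        rw [← hM, sq, ← mul_assoc]
        exact mul_le_mul_of_nonneg_right (by linarith) hM0.le
      have h3 := Nat.floor_le_floor h2
      rw [Nat.floor_natCast] at h3
      omega
    have hclose : |τ - τs ⟨i₀, hiN⟩| ≤ 1 / M := by
      have e1 : τ - τs ⟨i₀, hiN⟩ = ((τ + M) * M - (i₀ : ℝ)) / M := by
        simp only [hτs]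
        field_simp
        ring
      rw [e1, abs_div, abs_of_pos hM0]
      gcongr
      rw [abs_le]
      constructor <;> linarith
    have h1 := norm_sub_smul_lip e (F x) hFx τ (τs ⟨i₀, hiN⟩)
    have h2 := norm_sub_smul_lip (ψ e) (F x) hFx (τs ⟨i₀, hiN⟩) τ
    rw [abs_sub_comm] at h2
    have h3 := hle ⟨i₀, hiN⟩
    have h4 : 3 / M = 1 / M + 1 / M + 1 / M := by ring
    linarith
  choose e he hle using hsel
  -- scalar data along the sequence
  set y : ℕ → X := fun n => up (e n) with hy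
  set z : ℕ → X := fun n => low (e n) with hz
  set r : ℕ → ℝ := fun n => ‖y n - p‖ with hr
  set r' : ℕ → ℝ := fun n => ‖z n - p‖ with hr'
  have ny : ∀ n, ‖y n‖ = 1 := fun n => nup (he n)
  have nz : ∀ n, ‖z n‖ = 1 := fun n => nlow (he n)
  have eya : ∀ n, ‖F (y n) - q‖ = r n - D := fun n => by
    have : r n - ‖F (y n) - q‖ = D := upP (he n)
    linarith
  have ezb : ∀ n, ‖F (z n) - q‖ = r' n + D := fun n => by
    have : r' n - ‖F (z n) - q‖ = -D := (below (he n) (ndX (he n)) (self2 (he n))).1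
    linarith
  have ndn : ∀ n, ‖-dX (e n)‖ = 1 := fun n => by rw [norm_neg, ndX (he n)]
  have eyX : ∀ n, y n = p + r n • dX (e n) := fun n => by
    simp only [hr, hy, hdX]
    rw [smul_dirTo hp1 (nup (he n)), add_sub_cancel]
  have ezX : ∀ n, z n = p + r' n • -dX (e n) := fun n => by
    have hh : r' n = hitLen p (-dX (e n)) := norm_hit_sub hp1 (ndn n)
    rw [hh]
    rfl
  have eyY : ∀ n, F (y n) = q + (r n - D) • e n := fun n => by
    have h1 := smul_dirTo hq1 (h.norm_map _ (ny n))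
    rw [eya] at h1
    rw [show dirTo q (F (y n)) = e n from dirFup (he n)] at h1
    rw [h1, add_sub_cancel]
  have ezY : ∀ n, F (z n) = q + (r' n + D) • -ψ (e n) := fun n => by
    have h1 := smul_dirTo hq1 (h.norm_map _ (nz n))
    rw [ezb] at h1
    simp only [hψ, neg_neg]
    rw [h1, add_sub_cancel]
  have rng : ∀ {w : X}, ‖w‖ = 1 → 1 - t ≤ ‖w - p‖ ∧ ‖w - p‖ ≤ 1 + t ∧
      1 - t ≤ ‖F w - q‖ ∧ ‖F w - q‖ ≤ 1 + t := fun {w} hw => by
    have i1 := norm_sub_norm_le w p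
    have i2 := norm_sub_le w p
    have i3 := norm_sub_norm_le (F w) q
    have i4 := norm_sub_le (F w) q
    rw [hw, hpn] at i1 i2
    rw [h.norm_map w hw, hqn] at i3 i4
    exact ⟨i1, i2, i3, i4⟩
  set Ay : ℕ → ℝ → ℝ := fun n σ => ‖y n - σ • x‖ with hAy
  set Az : ℕ → ℝ → ℝ := fun n σ => ‖z n - σ • x‖ with hAz
  set By : ℕ → ℝ → ℝ := fun n σ => ‖F (y n) - σ • F x‖ with hBy
  set Bz : ℕ → ℝ → ℝ := fun n σ => ‖F (z n) - σ • F x‖ with hBz
  have hrnn : ∀ n, 0 ≤ r n := fun n => norm_nonneg _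
  have hr'nn : ∀ n, 0 ≤ r' n := fun n => norm_nonneg _
  have ha0 : ∀ n, 0 ≤ r n - D := fun n => by rw [← eya n]; exact norm_nonneg _
  have idA : ∀ n τ, r n * Az n (t - τ * r' n) = r' n * Ay n (t + τ * r n) := fun n τ => by
    simp only [hAy, hAz]
    rw [eyX, ezX, hp, norm_sub_line x (hrnn n),
      show t - τ * r' n = t + -τ * r' n by ring, norm_sub_line x (hr'nn n),
      show -dX (e n) - -τ • x = -(dX (e n) - τ • x) by module, norm_neg]
    ring
  have idB : ∀ (n : ℕ) (τ : ℝ), |τ| ≤ (n : ℝ) + 1 → (r' n + D) * By n (t + τ * (r n - D)) ≤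
      (r n - D) * Bz n (t - τ * (r' n + D)) + 12 / ((n : ℝ) + 1) := fun n τ hτ => by
    have hb0 : 0 ≤ r' n + D := by linarith [hr'nn n]
    simp only [hBy, hBz]
    rw [eyY, ezY, hq, norm_sub_line (F x) (ha0 n),
      show t - τ * (r' n + D) = t + -τ * (r' n + D) by ring, norm_sub_line (F x) hb0,
      show -ψ (e n) - -τ • F x = -(ψ (e n) - τ • F x) by module, norm_neg]
    have hab4 : (r' n + D) * (r n - D) ≤ 4 := by
      have h1 := (rng (ny n)).2.2.2
      have h2 := (rng (nz n)).2.2.2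
      rw [eya] at h1
      rw [ezb] at h2
      nlinarith [ha0 n]
    have hpos : 0 ≤ (r' n + D) * (r n - D) := mul_nonneg hb0 (ha0 n)
    have h3 := mul_le_mul_of_nonneg_left (hle n τ hτ) hpos
    have h4 : (r' n + D) * (r n - D) * (3 / ((n : ℝ) + 1)) ≤ 4 * (3 / ((n : ℝ) + 1)) :=
      mul_le_mul_of_nonneg_right hab4 (by positivity)
    have h5 : 4 * (3 / ((n : ℝ) + 1)) = 12 / ((n : ℝ) + 1) := by ring
    linarith
  -- limits along an ultrafilter
  set U : Ultrafilter ℕ := hyperfilter ℕ with hU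
  have hUle : (U : Filter ℕ) ≤ atTop := Nat.hyperfilter_le_atTop
  have bnd : ∀ g w : ℝ, 0 ≤ g → g ≤ w → |g| ≤ w := fun g w h1 h2 => by rwa [abs_of_nonneg h1]
  obtain ⟨R, hR⟩ := exists_tendsto_ultrafilter U (u := r) (M := 2) fun n =>
    bnd _ _ (hrnn n) (by linarith [(rng (ny n)).2.1])
  obtain ⟨R', hR'⟩ := exists_tendsto_ultrafilter U (u := r') (M := 2) fun n =>
    bnd _ _ (hr'nn n) (by linarith [(rng (nz n)).2.1])
  have hεU : Tendsto (fun n : ℕ => 12 / ((n : ℝ) + 1)) U (𝓝 0) := by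
    have h0 := (tendsto_one_div_add_atTop_nhds_zero_nat (𝕜 := ℝ)).const_mul 12
    simp only [mul_zero, mul_one_div] at h0
    exact h0.mono_left hUle
  have prof : ∀ (Φ : ℕ → ℝ → ℝ), (∀ n σ, 0 ≤ Φ n σ ∧ Φ n σ ≤ 1 + |σ|) →
      ∀ σ, ∃ l, Tendsto (fun n => Φ n σ) U (𝓝 l) := fun Φ hΦ σ =>
    exists_tendsto_ultrafilter U fun n => bnd _ _ (hΦ n σ).1 (hΦ n σ).2
  have rangeX : ∀ (w : X), ‖w‖ = 1 → ∀ σ : ℝ, 0 ≤ ‖w - σ • x‖ ∧ ‖w - σ • x‖ ≤ 1 + |σ| :=
    fun w hw σ => by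
    refine ⟨norm_nonneg _, (norm_sub_le _ _).trans ?_⟩
    rw [norm_smul, hx, hw, mul_one, Real.norm_eq_abs]
  have rangeY : ∀ (w : Y), ‖w‖ = 1 → ∀ σ : ℝ, 0 ≤ ‖w - σ • F x‖ ∧ ‖w - σ • F x‖ ≤ 1 + |σ| :=
    fun w hw σ => by
    refine ⟨norm_nonneg _, (norm_sub_le _ _).trans ?_⟩
    rw [norm_smul, hFx, hw, mul_one, Real.norm_eq_abs]
  choose AY hAY using prof Ay fun n σ => rangeX _ (ny n) σ
  choose AZ hAZ using prof Az fun n σ => rangeX _ (nz n) σ
  choose BY hBY using prof By fun n σ => rangeY _ (h.norm_map _ (ny n)) σ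
  choose BZ hBZ using prof Bz fun n σ => rangeY _ (h.norm_map _ (nz n)) σ
  have lAy : ∀ n σ τ, Ay n σ ≤ Ay n τ + |σ - τ| := fun n => norm_sub_smul_lip _ _ hx
  have lAz : ∀ n σ τ, Az n σ ≤ Az n τ + |σ - τ| := fun n => norm_sub_smul_lip _ _ hx
  have lBy : ∀ n σ τ, By n σ ≤ By n τ + |σ - τ| := fun n => norm_sub_smul_lip _ _ hFx
  have lBz : ∀ n σ τ, Bz n σ ≤ Bz n τ + |σ - τ| := fun n => norm_sub_smul_lip _ _ hFx
  have lipLim : ∀ (Φ : ℕ → ℝ → ℝ) (φ : ℝ → ℝ), (∀ n σ τ, Φ n σ ≤ Φ n τ + |σ - τ|) →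
      (∀ σ, Tendsto (fun n => Φ n σ) U (𝓝 (φ σ))) → ∀ σ τ, φ σ ≤ φ τ + |σ - τ| :=
    fun Φ φ hΦ hφ σ τ => le_of_tendsto_of_tendsto' (hφ σ) ((hφ τ).add_const _) fun n => hΦ n σ τ
  have heq : ∀ {Φ Ψ : ℕ → ℝ} {φ χ : ℝ}, Tendsto Φ U (𝓝 φ) → Tendsto Ψ U (𝓝 χ) →
      (∀ n, Φ n = Ψ n) → φ = χ := fun hΦ hΨ h' =>
    tendsto_nhds_unique hΦ (hΨ.congr fun n => (h' n).symm)
  have habs : ∀ {Φ Ψ : ℕ → ℝ} {φ χ : ℝ}, Tendsto Φ U (𝓝 φ) → Tendsto Ψ U (𝓝 χ) →
      (∀ n, |Φ n - Ψ n| ≤ D) → |φ - χ| ≤ D := fun hΦ hΨ h' =>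
    le_of_tendsto' (hΦ.sub hΨ).abs h'
  have hP : Profile AY AZ BY BZ t R R' D :=
    { ht0 := ht0
      ht1 := ht1
      hD := hD
      hr := ge_of_tendsto' hR fun n => (rng (ny n)).1
      hr' := ge_of_tendsto' hR' fun n => (rng (nz n)).1
      ha := ge_of_tendsto' (hR.sub_const D) fun n => (eya n) ▸ (rng (ny n)).2.2.1
      lAy := lipLim Ay AY lAy hAY
      lAz := lipLim Az AZ lAz hAZ
      lBy := lipLim By BY lBy hBY
      lBz := lipLim Bz BZ lBz hBZ
      cAy := fun s u θ h0 h1 => le_of_tendsto_of_tendsto' (hAY _)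
        (((hAY s).const_mul θ).add ((hAY u).const_mul (1 - θ))) fun n =>
          convex_profile (y n) x s u θ h0 h1
      cBz := fun s u θ h0 h1 => le_of_tendsto_of_tendsto' (hBZ _)
        (((hBZ s).const_mul θ).add ((hBZ u).const_mul (1 - θ))) fun n =>
          convex_profile (F (z n)) (F x) s u θ h0 h1
      hy1 := heq (hAY 1) (hBY 1) fun n => by simp [hAy, hBy, h.iso _ _ (ny n) hx]
      hz1 := heq (hAZ 1) (hBZ 1) fun n => by simp [hAz, hBz, h.iso _ _ (nz n) hx]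
      hAy0 := heq (hAY 0) tendsto_const_nhds fun n => by simp [hAy, ny]
      hBy0 := heq (hBY 0) tendsto_const_nhds fun n => by simp [hBy, h.norm_map _ (ny n)]
      hAz0 := heq (hAZ 0) tendsto_const_nhds fun n => by simp [hAz, nz]
      hBz0 := heq (hBZ 0) tendsto_const_nhds fun n => by simp [hBz, h.norm_map _ (nz n)]
      hAyt := heq (hAY t) hR fun n => rfl
      hBzt := heq (hBZ t) (hR'.add_const D) fun n => ezb n
      hyD := fun σ h1 h2 => habs (hAY σ) (hBY σ) fun n => hb (y n) (ny n) σ h1 h2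
      hzD := fun σ h1 h2 => habs (hAZ σ) (hBZ σ) fun n => hb (z n) (nz n) σ h1 h2
      hA := fun τ =>
        heq (hR.mul (tendsto_comp_lip lAz hAZ ((hR'.const_mul τ).const_sub t)))
          (hR'.mul (tendsto_comp_lip lAy hAY ((hR.const_mul τ).const_add t))) fun n => idA n τ
      hB := fun τ => by
        have h1 := (hR'.add_const D).mul
          (tendsto_comp_lip lBy hBY (((hR.sub_const D).const_mul τ).const_add t))
        have h2 := ((hR.sub_const D).mul
          (tendsto_comp_lip lBz hBZ (((hR'.add_const D).const_mul τ).const_sub t))).add hεU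
        rw [add_zero] at h2
        refine le_of_tendsto_of_tendsto h1 h2 ?_
        have hev : ∀ᶠ n : ℕ in (U : Filter ℕ), |τ| ≤ (n : ℝ) + 1 := by
          refine Filter.Eventually.filter_mono hUle ?_
          filter_upwards [eventually_ge_atTop ⌈|τ|⌉₊] with n hn
          have h6 : ((⌈|τ|⌉₊ : ℕ) : ℝ) ≤ (n : ℝ) := by exact_mod_cast hn
          linarith [Nat.le_ceil |τ|]
        exact hev.mono fun n hn => idB n τ hn }
  exact hP.false

end Vale.Agent.P084.InfDim
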