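import Mathlib

/-!
The scalar maximum principle for Tingley's problem, with one-sided closing of the chain.

`Ay, Az` are the profiles `σ ↦ ‖y - σ x‖`, `σ ↦ ‖z - σ x‖` in the source and `By, Bz` those in
the target. Only parameters in `[0, 1]` carry a bound on the deviation, and the target profile of
`z` only dominates the target profile of `y` after rescaling.
-/

namespace Vale.Agent.P084.InfDim

/-- The hypotheses of the one-sided maximum principle. -/
structure Profile (Ay Az By Bz : ℝ → ℝ) (t r r' D : ℝ) : Prop where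
  ht0 : 0 < t
  ht1 : t < 1
  hD : 0 < D
  hr : 1 - t ≤ r
  hr' : 1 - t ≤ r'
  ha : 1 - t ≤ r - D
  lAy : ∀ s u, Ay s ≤ Ay u + |s - u|
  lAz : ∀ s u, Az s ≤ Az u + |s - u|
  lBy : ∀ s u, By s ≤ By u + |s - u|
  lBz : ∀ s u, Bz s ≤ Bz u + |s - u|
  cAy : ∀ s u θ, 0 ≤ θ → θ ≤ 1 → Ay (θ * s + (1 - θ) * u) ≤ θ * Ay s + (1 - θ) * Ay u
  cBz : ∀ s u θ, 0 ≤ θ → θ ≤ 1 → Bz (θ * s + (1 - θ) * u) ≤ θ * Bz s + (1 - θ) * Bz u
  hy1 : Ay 1 = By 1
  hz1 : Az 1 = Bz 1
  hAy0 : Ay 0 = 1
  hBy0 : By 0 = 1
  hAz0 : Az 0 = 1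
  hBz0 : Bz 0 = 1
  hAyt : Ay t = r
  hBzt : Bz t = r' + D
  hyD : ∀ s, 0 ≤ s → s ≤ 1 → |Ay s - By s| ≤ D
  hzD : ∀ s, 0 ≤ s → s ≤ 1 → |Az s - Bz s| ≤ D
  hA : ∀ τ, r * Az (t - τ * r') = r' * Ay (t + τ * r)
  hB : ∀ τ, (r' + D) * By (t + τ * (r - D)) ≤ (r - D) * Bz (t - τ * (r' + D))

variable {Ay Az By Bz : ℝ → ℝ} {t r r' D : ℝ}

lemma Profile.bound_y (P : Profile Ay Az By Bz t r r' D) (hc : r' ≤ t * (r + r')) :
    (Ay 1 - (1 - t)) * (r + r') ≤ (r - D) * r := by
  obtain ⟨ht0, ht1, hD, hr, hr', ha, lAy, lAz, lBy, lBz, cAy, cBz, hy1, hz1, hAy0, hBy0, hAz0,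
    hBz0, hAyt, hBzt, hyD, hzD, hA, hB⟩ := P
  set k : ℝ := 1 - t with hk
  set a : ℝ := r - D with had
  set b : ℝ := r' + D with hbd
  set L : ℝ := r + r' with hL
  have hk0 : 0 < k := by linarith
  have hr0 : 0 < r := by linarith
  have hr'0 : 0 < r' := by linarith
  have ha0 : 0 < a := by linarith
  have hb0 : 0 < b := by linarith
  have hL0 : 0 < L := by linarith
  have hdet : r * b - a * r' = D * L := by rw [had, hbd, hL]; ring
  have habL : a + b = L := by rw [had, hbd, hL]; ring
  have e1 : b * By 1 ≤ a * Bz (t - k / a * b) := by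
    have := hB (k / a)
    rwa [div_mul_cancel₀ k ha0.ne', hk, add_sub_cancel, ← hk] at this
  rw [← hy1] at e1
  have e1' := mul_le_mul_of_nonneg_left e1 hr0.le
  rcases le_or_gt 0 (t - k / a * b) with hσ0 | hσ0
  · have e2 := hA (k * b / (a * r'))
    have ei : k * b / (a * r') * r' = k / a * b := by field_simp
    rw [ei] at e2
    have g1 := (abs_le.1 (hzD _ hσ0 (by
      nlinarith [div_pos hk0 ha0, mul_pos (div_pos hk0 ha0) hb0]))).1
    set σ := t + k * b / (a * r') * r with hσ
    have eσ : a * r' * (σ - 1) = k * (D * L) := by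
      rw [hσ, ← hdet]; field_simp; rw [hk]; ring
    have hσ1 : 1 ≤ σ := by
      have : 0 ≤ a * r' * (σ - 1) := by rw [eσ]; positivity
      nlinarith [(mul_pos ha0 hr'0)]
    have g2 := lAy σ 1
    rw [abs_of_nonneg (by linarith)] at g2
    have g3 := mul_le_mul_of_nonneg_left g2 (mul_pos ha0 hr'0).le
    have g4 := mul_le_mul_of_nonneg_left g1 (mul_pos ha0 hr0).le
    have : (Ay 1 - k) * L * D ≤ a * r * D := by
      linear_combination g3 + g4 + e1' + a * e2 + eσ - (Ay 1) * hdet
    exact le_of_mul_le_mul_right this hD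
  · exfalso
    have g1 := lBz (t - k / a * b) 0
    rw [hBz0, sub_zero, abs_of_neg hσ0] at g1
    have g1' := mul_le_mul_of_nonneg_left g1 ha0.le
    have ek : a * (k / a * b) = k * b := by field_simp
    have u1 : b * Ay 1 ≤ k * L := by
      rw [hk]
      linear_combination e1 + g1' + ek + k * habL
    have e2 := hA (t / r')
    rw [div_mul_cancel₀ t hr'0.ne', sub_self, hAz0, mul_one] at e2
    set σA := t + t / r' * r with hσA
    have eA : r' * σA = t * L := by rw [hσA, hL]; field_simp; ring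
    have hA1 : 1 ≤ σA := le_of_mul_le_mul_left (by linarith : r' * 1 ≤ r' * σA) hr'0
    have g2 := lAy σA 1
    rw [abs_of_nonneg (by linarith)] at g2
    have g2' := mul_le_mul_of_nonneg_left g2 hr'0.le
    have u2 : k * L ≤ r' * Ay 1 := by
      rw [hk]
      linear_combination g2' + e2 + eA
    have u3 := mul_le_mul_of_nonneg_left u1 hr'0.le
    have u4 := mul_le_mul_of_nonneg_left u2 hb0.le
    nlinarith [mul_pos (mul_pos hk0 hL0) hD]

lemma Profile.bound_z (P : Profile Ay Az By Bz t r r' D) (hc : r ≤ t * (r + r')) :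
    (Az 1 - (1 - t)) * (r + r') ≤ (r' + D) * r' := by
  obtain ⟨ht0, ht1, hD, hr, hr', ha, lAy, lAz, lBy, lBz, cAy, cBz, hy1, hz1, hAy0, hBy0, hAz0,
    hBz0, hAyt, hBzt, hyD, hzD, hA, hB⟩ := P
  set k : ℝ := 1 - t with hk
  set a : ℝ := r - D with had
  set b : ℝ := r' + D with hbd
  set L : ℝ := r + r' with hL
  have hk0 : 0 < k := by linarith
  have hr0 : 0 < r := by linarith
  have hr'0 : 0 < r' := by linarith
  have ha0 : 0 < a := by linarith
  have hb0 : 0 < b := by linarith
  have hL0 : 0 < L := by linarith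
  have hdet : r * b - a * r' = D * L := by rw [had, hbd, hL]; ring
  have e1 : r * Az 1 = r' * Ay (t - k / r' * r) := by
    have := hA (-(k / r'))
    rw [neg_mul, div_mul_cancel₀ k hr'0.ne', sub_neg_eq_add, hk, add_sub_cancel] at this
    rw [this, neg_mul, hk, ← sub_eq_add_neg]
  have hσ0 : 0 ≤ t - k / r' * r := by
    rw [sub_nonneg, div_mul_eq_mul_div, div_le_iff₀ hr'0, hk]
    linarith
  have e2 := hB (-(k * r / (r' * a)))
  have ei : t + -(k * r / (r' * a)) * a = t - k / r' * r := by field_simp; ring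
  rw [ei] at e2
  have g1 := (abs_le.1 (hyD _ hσ0 (by nlinarith [mul_pos (div_pos hk0 hr'0) hr0]))).2
  set σ := t - -(k * r / (r' * a)) * b with hσ
  have eσ : a * r' * (σ - 1) = k * (D * L) := by
    rw [hσ, ← hdet]; field_simp; rw [hk]; ring
  have hσ1 : 1 ≤ σ := by
    have : 0 ≤ a * r' * (σ - 1) := by rw [eσ]; positivity
    nlinarith [(mul_pos ha0 hr'0)]
  have g2 := lBz σ 1
  rw [abs_of_nonneg (by linarith), ← hz1] at g2
  have g3 := mul_le_mul_of_nonneg_left g2 (mul_pos ha0 hr'0).le
  have g4 := mul_le_mul_of_nonneg_left g1 (mul_pos hb0 hr'0).le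
  have : (Az 1 - k) * L * D ≤ b * r' * D := by
    linear_combination g3 + g4 + b * e1 + r' * e2 + eσ - (Az 1) * hdet
  exact le_of_mul_le_mul_right this hD

lemma Profile.bound_z' (P : Profile Ay Az By Bz t r r' D) (hc : t * (r + r') ≤ r) :
    r * Az 1 ≤ (1 - t) * (r + r') := by
  have hr'0 : 0 < r' := by linarith [P.hr', P.ht1]
  have e1 := P.hA (-((1 - t) / r'))
  rw [neg_mul, div_mul_cancel₀ _ hr'0.ne', sub_neg_eq_add, add_sub_cancel, neg_mul,
    ← sub_eq_add_neg] at e1
  have g1 := P.lAy (t - (1 - t) / r' * r) 0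
  have hσ : t - (1 - t) / r' * r ≤ 0 := by
    rw [sub_nonpos, div_mul_eq_mul_div, le_div_iff₀ hr'0]
    linarith
  rw [P.hAy0, sub_zero, abs_of_nonpos hσ] at g1
  have g2 := mul_le_mul_of_nonneg_left g1 hr'0.le
  have ek : r' * ((1 - t) / r' * r) = (1 - t) * r := by field_simp
  linear_combination e1 + g2 + ek

lemma Profile.bound_y' (P : Profile Ay Az By Bz t r r' D) (hc : t * (r + r') ≤ r') :
    (r' + D) * Ay 1 ≤ (1 - t) * (r + r') := by
  have hD := P.hD
  have ha0 : 0 < r - D := by linarith [P.ha, P.ht1]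
  have e1 := P.hB ((1 - t) / (r - D))
  rw [div_mul_cancel₀ _ ha0.ne', add_sub_cancel, ← P.hy1] at e1
  have g1 := P.lBz (t - (1 - t) / (r - D) * (r' + D)) 0
  have hσ : t - (1 - t) / (r - D) * (r' + D) ≤ 0 := by
    rw [sub_nonpos, div_mul_eq_mul_div, le_div_iff₀ ha0]
    nlinarith
  rw [P.hBz0, sub_zero, abs_of_nonpos hσ] at g1
  have g2 := mul_le_mul_of_nonneg_left g1 ha0.le
  have ek : (r - D) * ((1 - t) / (r - D) * (r' + D)) = (1 - t) * (r' + D) := by field_simp
  linear_combination e1 + g2 + ek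

lemma Profile.margin (P : Profile Ay Az By Bz t r r' D) (hc : r' ≤ t * (r + r')) :
    r + r' + D ≤ Ay 1 + Az 1 := by
  have hr0 : 0 < r := by linarith [P.hr, P.ht1]
  have hr'0 : 0 < r' := by linarith [P.hr', P.ht1]
  have hL0 : 0 < r + r' := by linarith
  set k : ℝ := 1 - t with hk
  set σ := t - k * r' / r with hσ
  have hlow : 0 ≤ σ := by
    rw [hσ, sub_nonneg, div_le_iff₀ hr0, hk]
    nlinarith
  have eσ : r * σ = r * t - k * r' := by rw [hσ]; field_simp
  have e1 := P.hA (k / r)
  rw [div_mul_cancel₀ k hr0.ne', hk, add_sub_cancel, ← hk,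
    show t - k / r * r' = σ by rw [hσ]; ring] at e1
  have g1 := (abs_le.1 (P.hzD σ hlow (by
    have : 0 ≤ k * r' / r := div_nonneg (mul_nonneg (by linarith [P.ht1]) hr'0.le) hr0.le
    linarith [P.ht1]))).1
  have hc' := P.cBz σ 1 (r / (r + r')) (by positivity) (by rw [div_le_one hL0]; linarith)
  have ept : r / (r + r') * σ + (1 - r / (r + r')) * 1 = t := by
    field_simp
    rw [eσ, hk]; ring
  rw [ept, P.hBzt, ← P.hz1] at hc'
  have h3 := mul_le_mul_of_nonneg_left hc' hL0.le
  have e3 : (r + r') * (r / (r + r') * Bz σ + (1 - r / (r + r')) * Az 1) =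
      r * Bz σ + r' * Az 1 := by field_simp; ring
  rw [e3] at h3
  have g2 := mul_le_mul_of_nonneg_left g1 hr0.le
  refine le_of_mul_le_mul_left (a := r') ?_ hr'0
  linear_combination h3 + g2 + e1

lemma Profile.margin' (P : Profile Ay Az By Bz t r r' D) (hc : r - D ≤ t * (r + r')) :
    r + r' + D ≤ Ay 1 + Az 1 := by
  have hD := P.hD
  have ha0 : 0 < r - D := by linarith [P.ha, P.ht1]
  have hb0 : 0 < r' + D := by linarith [P.hr', P.ht1]
  have hL0 : 0 < r + r' := by linarith
  set k : ℝ := 1 - t with hk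
  set σ := t - k * (r - D) / (r' + D) with hσ
  have hlow : 0 ≤ σ := by
    rw [hσ, sub_nonneg, div_le_iff₀ hb0, hk]
    nlinarith
  have eσ : (r' + D) * σ = (r' + D) * t - k * (r - D) := by rw [hσ]; field_simp
  have e1 := P.hB (-(k / (r' + D)))
  rw [neg_mul (k / (r' + D)) (r' + D), div_mul_cancel₀ k hb0.ne', sub_neg_eq_add, hk,
    add_sub_cancel, ← hk, ← P.hz1,
    show t + -(k / (r' + D)) * (r - D) = σ by rw [hσ]; ring] at e1
  have g1 := (abs_le.1 (P.hyD σ hlow (by
    have : 0 ≤ k * (r - D) / (r' + D) :=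
      div_nonneg (mul_nonneg (by linarith [P.ht1]) ha0.le) hb0.le
    linarith [P.ht1]))).2
  have hc' := P.cAy σ 1 ((r' + D) / (r + r')) (by positivity)
    (by rw [div_le_one hL0]; linarith)
  have ept : (r' + D) / (r + r') * σ + (1 - (r' + D) / (r + r')) * 1 = t := by
    field_simp
    rw [eσ, hk]; ring
  rw [ept, P.hAyt] at hc'
  have h3 := mul_le_mul_of_nonneg_left hc' hL0.le
  have e3 : (r + r') * ((r' + D) / (r + r') * Ay σ + (1 - (r' + D) / (r + r')) * Ay 1) =
      (r' + D) * Ay σ + (r - D) * Ay 1 := by field_simp; ring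
  rw [e3] at h3
  have g2 := mul_le_mul_of_nonneg_left g1 hb0.le
  refine le_of_mul_le_mul_left (a := r - D) ?_ ha0
  linear_combination h3 + g2 + e1

lemma Profile.node_z (P : Profile Ay Az By Bz t r r' D) :
    (1 - t) * (r + r') ≤ (r - D) * r' ∨ (1 - t) * (r + r') ≤ (r - D) * r := by
  have h4' := P.bound_z
  obtain ⟨ht0, ht1, hD, hr, hr', ha, lAy, lAz, lBy, lBz, cAy, cBz, hy1, hz1, hAy0, hBy0, hAz0,
    hBz0, hAyt, hBzt, hyD, hzD, hA, hB⟩ := P
  set k : ℝ := 1 - t with hk
  set a : ℝ := r - D with had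
  set b : ℝ := r' + D with hbd
  set L : ℝ := r + r' with hL
  have hk0 : 0 < k := by linarith
  have hr0 : 0 < r := by linarith
  have hr'0 : 0 < r' := by linarith
  have ha0 : 0 < a := by linarith
  have hb0 : 0 < b := by linarith
  have hL0 : 0 < L := by linarith
  have hdet : r * b - a * r' = D * L := by rw [had, hbd, hL]; ring
  have habL : a + b = L := by rw [had, hbd, hL]; ring
  have e1 := hA (-(t / r))
  rw [show t + -(t / r) * r = 0 by field_simp; ring, hAy0] at e1
  have e2 := hB (-(t / a))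
  rw [show t + -(t / a) * a = 0 by field_simp; ring, hBy0] at e2
  set σA := t - -(t / r) * r' with hσA
  set σB := t - -(t / a) * b with hσB
  have eA : r * σA = t * L := by rw [hσA, hL]; field_simp; ring
  have eB : a * σB = t * L := by rw [hσB, ← habL]; field_simp; ring
  have hAB : σA ≤ σB := by
    have h1 : a * r * (σB - σA) = t * L * D := by
      linear_combination r * eB - a * eA - t * L * had
    have : 0 ≤ a * r * (σB - σA) := by rw [h1]; positivity
    linarith [(mul_nonneg_iff_of_pos_left (mul_pos ha0 hr0)).1 this]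
  rcases lt_or_ge r (t * L) with hc | hc
  · left
    have h4 := h4' hc.le
    have hA1 : 1 < σA := lt_of_mul_lt_mul_left (by linarith : r * 1 < r * σA) hr0.le
    have g := lBz σB 1
    rw [abs_of_nonneg (by linarith), ← hz1] at g
    have g' := mul_le_mul_of_nonneg_left g ha0.le
    have hb1 : k * b ≤ a * (Az 1 - k) := by
      rw [hk]
      linear_combination g' + eB + e2 + habL
    have g5 := mul_le_mul_of_nonneg_left h4 ha0.le
    have g6 := mul_le_mul_of_nonneg_right hb1 hL0.le
    refine le_of_mul_le_mul_left (a := b) ?_ hb0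
    linear_combination g5 + g6
  · right
    have hA1 : σA ≤ 1 := le_of_mul_le_mul_left (by linarith : r * σA ≤ r * 1) hr0
    rcases le_or_gt σB 1 with hB1 | hB1
    · have g1 := (abs_le.1 (hzD σB (by
        have : 0 ≤ a * σB := by rw [eB]; positivity
        linarith [(mul_nonneg_iff_of_pos_left ha0).1 this]) hB1)).1
      have g2 := lAz σB σA
      rw [abs_of_nonneg (by linarith)] at g2
      have g3 := mul_le_mul_of_nonneg_left g1 (mul_pos ha0 hr0).le
      have g4 := mul_le_mul_of_nonneg_left g2 (mul_pos ha0 hr0).le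
      have : k * L * D ≤ a * r * D := by
        rw [hk]
        linear_combination g3 + g4 + a * e1 + r * e2 + r * eB - a * eA - hdet - t * L * had
      exact le_of_mul_le_mul_right this hD
    · exfalso
      have g1 := lBz σB 1
      rw [abs_of_nonneg (by linarith), ← hz1] at g1
      have g2 := lAz 1 σA
      rw [abs_of_nonneg (by linarith)] at g2
      have g3 := mul_le_mul_of_nonneg_left g1 (mul_pos ha0 hr0).le
      have g4 := mul_le_mul_of_nonneg_left g2 (mul_pos ha0 hr0).le
      have : k * L * D ≤ 0 := by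
        rw [hk]
        linear_combination g3 + g4 + a * e1 + r * e2 + r * eB - a * eA - hdet - t * L * had
      linarith [mul_pos (mul_pos hk0 hL0) hD]

lemma Profile.node_y (P : Profile Ay Az By Bz t r r' D) :
    (1 - t) * (r + r') ≤ (r - D) * r' ∨ (1 - t) * (r + r') ≤ (r' + D) * r' := by
  have h3' := P.bound_y
  obtain ⟨ht0, ht1, hD, hr, hr', ha, lAy, lAz, lBy, lBz, cAy, cBz, hy1, hz1, hAy0, hBy0, hAz0,
    hBz0, hAyt, hBzt, hyD, hzD, hA, hB⟩ := P
  set k : ℝ := 1 - t with hk
  set a : ℝ := r - D with had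
  set b : ℝ := r' + D with hbd
  set L : ℝ := r + r' with hL
  have hk0 : 0 < k := by linarith
  have hr0 : 0 < r := by linarith
  have hr'0 : 0 < r' := by linarith
  have ha0 : 0 < a := by linarith
  have hb0 : 0 < b := by linarith
  have hL0 : 0 < L := by linarith
  have hdet : r * b - a * r' = D * L := by rw [had, hbd, hL]; ring
  have habL : a + b = L := by rw [had, hbd, hL]; ring
  have e1 := hA (t / r')
  rw [div_mul_cancel₀ t hr'0.ne', sub_self, hAz0] at e1
  have e2 := hB (t / b)
  rw [div_mul_cancel₀ t hb0.ne', sub_self, hBz0] at e2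
  set σA := t + t / r' * r with hσA
  set σB := t + t / b * a with hσB
  have eA : r' * σA = t * L := by rw [hσA, hL]; field_simp; ring
  have eB : b * σB = t * L := by rw [hσB, ← habL]; field_simp; ring
  rcases lt_or_ge r' (t * L) with hc | hc
  · left
    have h3 := h3' hc.le
    have hA1 : 1 < σA := lt_of_mul_lt_mul_left (by linarith : r' * 1 < r' * σA) hr'0.le
    have g := lAy σA 1
    rw [abs_of_nonneg (by linarith)] at g
    have g' := mul_le_mul_of_nonneg_left g hr'0.le
    have hb1 : k * r ≤ r' * (Ay 1 - k) := by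
      rw [hk]
      linear_combination g' + eA + e1
    have g5 := mul_le_mul_of_nonneg_left h3 hr'0.le
    have g6 := mul_le_mul_of_nonneg_right hb1 hL0.le
    refine le_of_mul_le_mul_left (a := r) ?_ hr0
    linear_combination g5 + g6
  · right
    have hA1 : σA ≤ 1 := le_of_mul_le_mul_left (by linarith : r' * σA ≤ r' * 1) hr'0
    have hAB : σB ≤ σA := by
      have h1 : b * (r' * (σA - σB)) = t * L * D := by
        linear_combination b * eA - r' * eB + t * L * hbd
      have : 0 ≤ b * r' * (σA - σB) := by rw [mul_assoc, h1]; positivity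
      linarith [(mul_nonneg_iff_of_pos_left (mul_pos hb0 hr'0)).1 this]
    have g1 := (abs_le.1 (hyD σB (by
      have : 0 ≤ b * σB := by rw [eB]; positivity
      linarith [(mul_nonneg_iff_of_pos_left hb0).1 this]) (by linarith))).2
    have g2 := lAy σA σB
    rw [abs_of_nonneg (by linarith)] at g2
    have g3 := mul_le_mul_of_nonneg_left g1 (mul_pos hb0 hr'0).le
    have g4 := mul_le_mul_of_nonneg_left g2 (mul_pos hb0 hr'0).le
    have : k * L * D ≤ b * r' * D := by
      rw [hk]
      linear_combination g3 + g4 + b * e1 + r' * e2 + b * eA - r' * eB - hdet + t * L * hbd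
    exact le_of_mul_le_mul_right this hD

/-- No configuration with positive deviation `D` exists. -/
theorem Profile.false (P : Profile Ay Az By Bz t r r' D) : False := by
  have hD := P.hD
  have ht0 := P.ht0
  have hk0 : 0 < 1 - t := by linarith [P.ht1]
  have hr0 : 0 < r := by linarith [P.hr]
  have hr'0 : 0 < r' := by linarith [P.hr']
  have ha0 : 0 < r - D := by linarith [P.ha]
  have hb0 : 0 < r' + D := by linarith
  have hL0 : 0 < r + r' := by linarith
  have hDL := mul_pos hD hL0
  -- the nodes push `r (r' + D)` above `(1 - t) (r + r')`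
  have low : (1 - t) * (r + r') < r * (r' + D) := by
    rcases P.node_z with h | h
    · nlinarith
    rcases P.node_y with h' | h'
    · nlinarith
    rcases lt_or_ge (r - D) (r' + D) with hab | hab
    · nlinarith
    · nlinarith
  -- the margin pushes it below
  by_cases hm : r' ≤ t * (r + r') ∨ r - D ≤ t * (r + r')
  · have hmargin : r + r' + D ≤ Ay 1 + Az 1 := hm.elim P.margin P.margin'
    rcases le_total r' (t * (r + r')) with hy | hy <;>
      rcases le_total r (t * (r + r')) with hz | hz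
    · nlinarith [P.bound_y hy, P.bound_z hz, mul_le_mul_of_nonneg_left hmargin hL0.le]
    · have h := mul_le_mul_of_nonneg_left hmargin (mul_pos hL0 hr0).le
      have h1 := mul_le_mul_of_nonneg_left (P.bound_y hy) hr0.le
      have h2 := mul_le_mul_of_nonneg_left (P.bound_z' hz) hL0.le
      have key : (r + r' + r) * (r * (r' + D)) ≤ (r + r' + r) * ((1 - t) * (r + r')) := by
        linear_combination h + h1 + h2
      linarith [le_of_mul_le_mul_left key (by linarith : 0 < r + r' + r)]
    · have h := mul_le_mul_of_nonneg_left hmargin (mul_pos hL0 hb0).le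
      have h1 := mul_le_mul_of_nonneg_left (P.bound_z hz) hb0.le
      have h2 := mul_le_mul_of_nonneg_left (P.bound_y' hy) hL0.le
      have key : (r + r' + (r' + D)) * (r * (r' + D)) ≤
          (r + r' + (r' + D)) * ((1 - t) * (r + r')) := by
        linear_combination h + h1 + h2
      linarith [le_of_mul_le_mul_left key (by linarith : 0 < r + r' + (r' + D))]
    · have h := mul_le_mul_of_nonneg_left hmargin (mul_pos hb0 hr0).le
      have h1 := mul_le_mul_of_nonneg_left (P.bound_y' hy) hr0.le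
      have h2 := mul_le_mul_of_nonneg_left (P.bound_z' hz) hb0.le
      have key : (r + r' + D) * (r * (r' + D)) ≤ (r + r' + D) * ((1 - t) * (r + r')) := by
        linear_combination h + h1 + h2
      linarith [le_of_mul_le_mul_left key (by linarith : 0 < r + r' + D)]
  · push Not at hm
    obtain ⟨hy, ha⟩ := hm
    have h1 := P.cAy 1 0 t ht0.le P.ht1.le
    rw [mul_one, mul_zero, add_zero, P.hAyt, P.hAy0, mul_one] at h1
    have h2 := mul_le_mul_of_nonneg_left h1 hb0.le
    have h3 := mul_le_mul_of_nonneg_left (P.bound_y' hy.le) ht0.le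
    have : (1 - t) * ((1 - t) * (r + r')) < (1 - t) * (r' + D) := by nlinarith
    nlinarith [lt_of_mul_lt_mul_left this hk0.le]

end Vale.Agent.P084.InfDim
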