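import Vale.Agent.P084.UniformConvex

/-!
The ultrapower of a real normed space, and the isometry it inherits from an isometry of unit
spheres.
-/

open Metric Set Filter
open scoped Topology BoundedContinuousFunction

namespace Vale.Agent.P084.InfDim

variable (X : Type*) [NormedAddCommGroup X] [NormedSpace ℝ X]

/-- The free ultrafilter along which limits are taken. -/
noncomputable def freeUf : Ultrafilter ℕ := hyperfilter ℕ

/-- Bounded sequences tending to zero along the ultrafilter. -/
def nullSeq : Submodule ℝ (ℕ →ᵇ X) where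
  carrier := {u | Tendsto (fun n => ‖u n‖) (freeUf : Filter ℕ) (𝓝 0)}
  zero_mem' := by simp
  add_mem' := fun {u v} hu hv => by
    have h := Tendsto.add hu hv
    rw [add_zero] at h
    exact squeeze_zero (fun n => norm_nonneg _) (fun n => norm_add_le (u n) (v n)) h
  smul_mem' := fun c u hu => by
    have h := Tendsto.const_mul ‖c‖ hu
    rw [mul_zero] at h
    exact h.congr fun n => (norm_smul c (u n)).symm

instance isClosed_nullSeq : IsClosed (nullSeq X : Set (ℕ →ᵇ X)) := by
  refine isClosed_of_closure_subset fun u hu => ?_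
  show Tendsto (fun n => ‖u n‖) (freeUf : Filter ℕ) (𝓝 0)
  rw [Metric.tendsto_nhds]
  intro ε hε
  obtain ⟨v, hv, huv⟩ := Metric.mem_closure_iff.1 hu (ε / 2) (by linarith)
  filter_upwards [Metric.tendsto_nhds.1 hv (ε / 2) (by linarith)] with n hn
  rw [Real.dist_eq, sub_zero, abs_norm] at hn ⊢
  have h1 := (u - v).norm_coe_le_norm n
  rw [← dist_eq_norm] at h1
  have h2 := norm_sub_norm_le (u n) (v n)
  rw [BoundedContinuousFunction.coe_sub, Pi.sub_apply] at h1
  linarith

/-- The ultrapower. -/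
abbrev Upow := (ℕ →ᵇ X) ⧸ nullSeq X

variable {X}

lemma tendsto_norm_mk (u : ℕ →ᵇ X) :
    Tendsto (fun n => ‖u n‖) (freeUf : Filter ℕ)
      (𝓝 ‖(Submodule.Quotient.mk u : Upow X)‖) := by
  obtain ⟨L, hL⟩ := exists_tendsto_ultrafilter freeUf (u := fun n => ‖u n‖) (M := ‖u‖)
    fun n => by rw [abs_norm]; exact u.norm_coe_le_norm n
  suffices h : ‖(Submodule.Quotient.mk u : Upow X)‖ = L by rwa [h]
  have hL0 : 0 ≤ L := ge_of_tendsto' hL fun n => norm_nonneg _
  refine le_antisymm ?_ ?_
  · refine le_of_forall_pos_le_add fun ε hε => ?_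
    set M := L + ε
    have hM : 0 < M := by positivity
    set c : ℕ → ℝ := fun n => if ‖u n‖ ≤ M then 1 else 0 with hc
    set u' : ℕ →ᵇ X := BoundedContinuousFunction.ofNormedAddCommGroupDiscrete
      (fun n => c n • u n) M (fun n => by
        by_cases h : ‖u n‖ ≤ M <;> simp [hc, h, hM.le]) with hu'
    have hmem : u - u' ∈ nullSeq X := by
      show Tendsto (fun n => ‖(u - u') n‖) (freeUf : Filter ℕ) (𝓝 0)
      refine Tendsto.congr' ?_ tendsto_const_nhds
      filter_upwards [hL.eventually (ge_mem_nhds (show L < M by linarith))] with n hn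
      simp [hu', hc, hn]
    rw [(Submodule.Quotient.eq (nullSeq X)).2 hmem]
    exact (Submodule.Quotient.norm_mk_le _ u').trans
      ((BoundedContinuousFunction.norm_le hM.le).2 fun n => by
        by_cases h : ‖u n‖ ≤ M <;> simp [hu', hc, h, hM.le])
  · refine le_of_forall_pos_le_add fun ε hε => ?_
    obtain ⟨m, hm, hlt⟩ := Submodule.Quotient.norm_mk_lt
      (Submodule.Quotient.mk u : Upow X) hε
    have hmem : Tendsto (fun n => ‖(u - m) n‖) (freeUf : Filter ℕ) (𝓝 0) :=
      (Submodule.Quotient.eq (nullSeq X)).1 hm.symm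
    have h2 := hmem.add_const ‖m‖
    rw [zero_add] at h2
    refine (le_of_tendsto_of_tendsto' hL h2 fun n => ?_).trans hlt.le
    have h3 := norm_sub_norm_le (u n) (m n)
    rw [BoundedContinuousFunction.coe_sub, Pi.sub_apply]
    linarith [m.norm_coe_le_norm n]

/-- The class of a sequence of unit vectors. -/
noncomputable def cls (z : ℕ → sphere (0 : X) 1) : Upow X :=
  Submodule.Quotient.mk
    (BoundedContinuousFunction.ofNormedAddCommGroupDiscrete (fun n => (z n : X)) 1
      fun n => (norm_eq_of_mem_sphere (z n)).le)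

lemma tendsto_cls_sub_smul (z w : ℕ → sphere (0 : X) 1) (s : ℝ) :
    Tendsto (fun n => ‖(z n : X) - s • (w n : X)‖) (freeUf : Filter ℕ)
      (𝓝 ‖cls z - s • cls w‖) := by
  rw [cls, cls, ← Submodule.Quotient.mk_smul, ← Submodule.Quotient.mk_sub]
  exact (tendsto_norm_mk _).congr fun n => by simp

lemma norm_cls (z : ℕ → sphere (0 : X) 1) : ‖cls z‖ = 1 := by
  refine tendsto_nhds_unique (tendsto_norm_mk _) (tendsto_const_nhds.congr fun n => ?_)
  simp

lemma cls_eq_iff {z w : ℕ → sphere (0 : X) 1} :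
    cls z = cls w ↔ Tendsto (fun n => ‖(z n : X) - (w n : X)‖) (freeUf : Filter ℕ) (𝓝 0) := by
  have h := tendsto_cls_sub_smul z w 1
  simp only [one_smul] at h
  constructor
  · intro e
    rwa [e, sub_self, norm_zero] at h
  · intro e
    exact sub_eq_zero.1 (norm_eq_zero.1 (tendsto_nhds_unique h e))

lemma exists_cls [Nontrivial X] (a : sphere (0 : Upow X) 1) : ∃ z, cls z = (a : Upow X) := by
  obtain ⟨u, hu⟩ := Submodule.Quotient.mk_surjective (nullSeq X) (a : Upow X)
  have h := tendsto_norm_mk u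
  rw [hu, norm_eq_of_mem_sphere a] at h
  obtain ⟨x₀, hx₀⟩ := (NormedSpace.sphere_nonempty (E := X) (x := 0) (r := 1)).2 zero_le_one
  classical
  refine ⟨fun n => if hn : u n = 0 then ⟨x₀, hx₀⟩ else
    ⟨‖u n‖⁻¹ • u n, by simp [norm_smul, norm_ne_zero_iff.2 hn]⟩, ?_⟩
  rw [← hu, cls, Submodule.Quotient.eq]
  show Tendsto _ (freeUf : Filter ℕ) (𝓝 0)
  have h0 := (h.sub_const 1).abs
  rw [sub_self, abs_zero] at h0
  refine squeeze_zero' (Eventually.of_forall fun n => norm_nonneg _) ?_ h0
  filter_upwards [h.eventually (lt_mem_nhds (show (0 : ℝ) < 1 by norm_num))] with n hn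
  have hne : u n ≠ 0 := norm_pos_iff.1 hn
  simp only [BoundedContinuousFunction.coe_sub, Pi.sub_apply,
    BoundedContinuousFunction.coe_ofNormedAddCommGroupDiscrete, dif_neg hne]
  have e1 : ‖u n‖⁻¹ • u n - u n = (‖u n‖⁻¹ * (1 - ‖u n‖)) • u n := by
    rw [mul_sub, mul_one, inv_mul_cancel₀ hn.ne', sub_smul, one_smul]
  rw [e1, norm_smul, norm_mul, norm_inv, norm_norm, Real.norm_eq_abs, abs_sub_comm]
  field_simp
  exact le_rfl

section map

variable {Y : Type*} [NormedAddCommGroup Y] [NormedSpace ℝ Y] [Nontrivial X]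

/-- A chosen sequence of unit vectors representing a unit vector of the ultrapower. -/
noncomputable def rep (a : sphere (0 : Upow X) 1) : ℕ → sphere (0 : X) 1 :=
  (exists_cls a).choose

lemma cls_rep (a : sphere (0 : Upow X) 1) : cls (rep a) = (a : Upow X) :=
  (exists_cls a).choose_spec

/-- The map of ultrapower spheres induced by a map of spheres. -/
noncomputable def upMap (f : sphere (0 : X) 1 → sphere (0 : Y) 1) (a : sphere (0 : Upow X) 1) :
    sphere (0 : Upow Y) 1 :=
  ⟨cls fun n => f (rep a n), mem_sphere_zero_iff_norm.2 (norm_cls _)⟩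

lemma coe_upMap (f : sphere (0 : X) 1 → sphere (0 : Y) 1) (hf : Isometry f)
    (a : sphere (0 : Upow X) 1) {z : ℕ → sphere (0 : X) 1} (hz : cls z = (a : Upow X)) :
    (upMap f a : Upow Y) = cls fun n => f (z n) := by
  refine cls_eq_iff.2 ?_
  simp only [norm_sub_map_sub f hf]
  exact cls_eq_iff.1 (by rw [cls_rep, hz])

lemma isometry_upMap (f : sphere (0 : X) 1 → sphere (0 : Y) 1) (hf : Isometry f) :
    Isometry (upMap f) := Isometry.of_dist_eq fun a b => by
  rw [Subtype.dist_eq, Subtype.dist_eq, dist_eq_norm, dist_eq_norm, ← cls_rep a, ← cls_rep b]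
  refine tendsto_nhds_unique (?_ : Tendsto (fun n => ‖(rep a n : X) - (rep b n : X)‖)
    (freeUf : Filter ℕ) _) ?_
  · have h := tendsto_cls_sub_smul (fun n => f (rep a n)) (fun n => f (rep b n)) 1
    simp only [one_smul, norm_sub_map_sub f hf] at h
    exact h
  · have h := tendsto_cls_sub_smul (rep a) (rep b) 1
    simp only [one_smul] at h
    exact h

lemma upMap_upMap [Nontrivial Y] (f : sphere (0 : X) 1 → sphere (0 : Y) 1)
    (g : sphere (0 : Y) 1 → sphere (0 : X) 1) (hg : Isometry g) (hgf : ∀ a, g (f a) = a)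
    (a : sphere (0 : Upow X) 1) : upMap g (upMap f a) = a := by
  apply Subtype.ext
  rw [coe_upMap g hg (upMap f a) (z := fun n => f (rep a n)) rfl]
  simp only [hgf]
  exact cls_rep a

end map

end Vale.Agent.P084.InfDim
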