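import Vale.Agent.P084.InfDim.Cap
import Vale.Agent.P084.InfDim.Ultra

/-!
Tingley's problem: surjective isometries between unit spheres of real normed spaces are linear.
-/

open Metric Set Filter
open scoped Topology

namespace Vale.Agent.P084.InfDim

variable {X Y : Type*} [NormedAddCommGroup X] [NormedSpace ℝ X] [NormedAddCommGroup Y]
  [NormedSpace ℝ Y]

/-- The positively homogeneous extensions of mutually inverse sphere isometries. -/
lemma sphereIso_radial (f : sphere (0 : X) 1 → sphere (0 : Y) 1)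
    (g : sphere (0 : Y) 1 → sphere (0 : X) 1) (hf : Isometry f) (hg : Isometry g)
    (hfg : ∀ c, f (g c) = c) : SphereIso (radial f) (radial g) where
  norm_map a ha := by rw [norm_radial, ha]
  norm_inv c hc := by rw [norm_radial, hc]
  iso a b ha hb := by
    have ea := radial_sphere f ⟨a, mem_sphere_zero_iff_norm.2 ha⟩
    have eb := radial_sphere f ⟨b, mem_sphere_zero_iff_norm.2 hb⟩
    rw [ea, eb]
    exact norm_sub_map_sub f hf _ _
  right_inv c _ := radial_radial g f hfg c
  cont := (radial_lipschitz f hf).continuous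
  cont_inv := (radial_lipschitz g hg).continuous

/-- A deviation cannot approach its positive bound. -/
theorem no_near (f : sphere (0 : X) 1 → sphere (0 : Y) 1) (g : sphere (0 : Y) 1 → sphere (0 : X) 1)
    (hf : Isometry f) (hg : Isometry g) (hgf : ∀ a, g (f a) = a) (hfg : ∀ c, f (g c) = c)
    {D : ℝ} (hD : 0 < D)
    (hbd : ∀ x y s, 0 ≤ s → s ≤ 1 → |dev f x y s| ≤ D)
    (hnear : ∀ ε, 0 < ε → ∃ x y t, 0 ≤ t ∧ t ≤ 1 ∧ D - ε < dev f x y t) : False := by
  have hpos : ∀ n : ℕ, (0 : ℝ) < 1 / ((n : ℝ) + 1) := fun n => by positivity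
  choose x y t ht0 ht1 htD using fun n : ℕ => hnear _ (hpos n)
  haveI : Nontrivial X := ⟨⟨(x 0 : X), 0, fun h => by
    simpa [h] using norm_eq_of_mem_sphere (x 0)⟩⟩
  haveI : Nontrivial Y := ⟨⟨(f (x 0) : Y), 0, fun h => by
    simpa [h] using norm_eq_of_mem_sphere (f (x 0))⟩⟩
  obtain ⟨T, hT⟩ := exists_tendsto_ultrafilter freeUf (u := t) (M := 1) fun n =>
    abs_le.2 ⟨by linarith [ht0 n], ht1 n⟩
  have hdevT : Tendsto (fun n => dev f (x n) (y n) T) (freeUf : Filter ℕ) (𝓝 D) := by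
    have h0 : Tendsto (fun n : ℕ => D - (1 / ((n : ℝ) + 1) + 2 * |t n - T|))
        (freeUf : Filter ℕ) (𝓝 D) := by
      have h1 : Tendsto (fun n : ℕ => 1 / ((n : ℝ) + 1)) (freeUf : Filter ℕ) (𝓝 0) :=
        (tendsto_one_div_add_atTop_nhds_zero_nat (𝕜 := ℝ)).mono_left Nat.hyperfilter_le_atTop
      have h2 := ((hT.sub_const T).abs.const_mul 2)
      rw [sub_self, abs_zero, mul_zero] at h2
      simpa using (h1.add h2).const_sub D
    refine tendsto_of_tendsto_of_tendsto_of_le_of_le h0 tendsto_const_nhds (fun n => ?_)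
      (fun n => (abs_le.1 (hbd _ _ _ (ge_of_tendsto' hT ht0) (le_of_tendsto' hT ht1))).2)
    show D - _ ≤ _
    linarith [htD n, dev_le_dist f (x n) (y n) (t n) T]
  set f' := upMap f
  set g' := upMap g
  have hgf' : ∀ a, g' (f' a) = a := upMap_upMap f g hg hgf
  have hfg' : ∀ c, f' (g' c) = c := upMap_upMap g f hf hfg
  set F := radial f' with hF
  have hSI : SphereIso F (radial g') :=
    sphereIso_radial f' g' (isometry_upMap f hf) (isometry_upMap g hg) hfg'
  have hFcls : ∀ z : ℕ → sphere (0 : X) 1, F (cls z) = cls fun n => f (z n) := fun z => by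
    have e := radial_sphere f' ⟨cls z, mem_sphere_zero_iff_norm.2 (norm_cls z)⟩
    rw [hF, e]
    exact coe_upMap f hf _ rfl
  have hlim : ∀ z s, Tendsto (fun n => dev f (x n) (z n) s) (freeUf : Filter ℕ)
      (𝓝 (‖cls z - s • cls x‖ - ‖F (cls z) - s • F (cls x)‖)) := fun z s => by
    rw [hFcls, hFcls]
    exact (tendsto_cls_sub_smul z x s).sub (tendsto_cls_sub_smul _ _ s)
  have hT0 : 0 < T := by
    rcases (ge_of_tendsto' hT ht0).lt_or_eq with h | h
    · exact h
    · rw [← h] at hdevT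
      exact absurd (tendsto_nhds_unique hdevT (tendsto_const_nhds.congr fun n => by simp [dev]))
        hD.ne'
  have hT1 : T < 1 := by
    rcases (le_of_tendsto' hT ht1).lt_or_eq with h | h
    · exact h
    · rw [h] at hdevT
      exact absurd (tendsto_nhds_unique hdevT
        (tendsto_const_nhds.congr fun n => (dev_one f hf (x n) (y n)).symm)) hD.ne'
  refine no_attained hSI hD (norm_cls x) hT0 hT1 ?_ (norm_cls y)
    (tendsto_nhds_unique (hlim y T) hdevT)
  intro w hw s hs0 hs1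
  obtain ⟨z, hz⟩ := exists_cls ⟨w, mem_sphere_zero_iff_norm.2 hw⟩
  subst hz
  exact le_of_tendsto' (hlim z s).abs fun n => hbd (x n) (z n) s hs0 hs1

/-- The distance profiles agree. -/
theorem dev_eq_zero' (f : sphere (0 : X) 1 → sphere (0 : Y) 1) (hf : Isometry f)
    (hsurj : Function.Surjective f) (x y : sphere (0 : X) 1) {s : ℝ} (h0 : 0 ≤ s) (h1 : s ≤ 1) :
    dev f x y s = 0 := by
  let g : sphere (0 : Y) 1 → sphere (0 : X) 1 := Function.surjInv hsurj
  have hfg : ∀ w, f (g w) = w := Function.surjInv_eq hsurj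
  have hgf : ∀ w, g (f w) = w := fun w => hf.injective (hfg _)
  have hg : Isometry g := Isometry.of_dist_eq fun w w' => by
    rw [← hf.dist_eq (g w) (g w'), hfg, hfg]
  have hflip : ∀ (x y : sphere (0 : X) 1) σ, dev g (f x) (f y) σ = -dev f x y σ := fun x y σ => by
    simp only [dev, hgf]
    ring
  set S : Set ℝ := {d | ∃ x y σ, 0 ≤ σ ∧ σ ≤ 1 ∧ d = |dev f x y σ|} with hS
  have hSne : S.Nonempty := ⟨_, x, y, s, h0, h1, rfl⟩
  have hSb : BddAbove S := ⟨2, by
    rintro d ⟨x, y, σ, a, b, rfl⟩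
    exact abs_dev_le f x y (by linarith) b⟩
  have hle : ∀ x y σ, 0 ≤ σ → σ ≤ 1 → |dev f x y σ| ≤ sSup S := fun x y σ a b =>
    le_csSup hSb ⟨x, y, σ, a, b, rfl⟩
  by_contra hne
  have hD : 0 < sSup S := lt_of_lt_of_le (abs_pos.2 hne) (hle x y s h0 h1)
  by_cases hpos : ∀ ε, 0 < ε → ∃ x y t, 0 ≤ t ∧ t ≤ 1 ∧ sSup S - ε < dev f x y t
  · exact no_near f g hf hg hgf hfg hD hle hpos
  · push Not at hpos
    obtain ⟨ε₀, hε₀, hno⟩ := hpos
    refine no_near g f hg hf hfg hgf hD (fun u v σ a b => ?_) fun ε hε => ?_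
    · rw [← hfg u, ← hfg v, hflip, abs_neg]
      exact hle _ _ σ a b
    obtain ⟨d, ⟨x, y, t, a, b, rfl⟩, h⟩ :=
      exists_lt_of_lt_csSup hSne (sub_lt_self (sSup S) (lt_min hε hε₀))
    refine ⟨f x, f y, t, a, b, ?_⟩
    rw [hflip]
    rcases le_total 0 (dev f x y t) with hsg | hsg
    · rw [abs_of_nonneg hsg] at h
      linarith [hno x y t a b, min_le_right ε ε₀]
    · rw [abs_of_nonpos hsg] at h
      linarith [min_le_left ε ε₀]

/-- Every surjective isometry between unit spheres of real normed spaces extends linearly. -/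
theorem tingley (f : sphere (0 : X) 1 → sphere (0 : Y) 1) (hf : Isometry f)
    (hsurj : Function.Surjective f) :
    ∃ T : X ≃ₗᵢ[ℝ] Y, ∀ x : sphere (0 : X) 1, T (x : X) = (f x : Y) := by
  have hiso : Isometry (radial f) := Isometry.of_dist_eq fun a b => by
    rw [dist_eq_norm, dist_eq_norm]
    exact norm_radial_sub_of_dev f (fun x y s h0 h1 => dev_eq_zero' f hf hsurj x y h0 h1) a b
  let E : X ≃ᵢ Y :=
    ⟨Equiv.ofBijective (radial f) ⟨hiso.injective, radial_surjective f hsurj⟩, hiso⟩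
  refine ⟨E.toRealLinearIsometryEquivOfMapZero (radial_zero f), fun x => ?_⟩
  exact radial_sphere f x

end Vale.Agent.P084.InfDim
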